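import Mathlib

/-!
# P122 / RV : quantitative homogeneity (helper11)

`QH` : a function on a cyclic mesh of `K` points with values in `[0,2]` (the increments of a
`2`-Lipschitz nondecreasing function, times `K`) is, at some scale `r` with `ρ K ≤ r ≤ r0 K`,
balanced around all but `e1 K` points: the sums over `[k+u, k+r)` and `[k-r, k-u)` differ by at most
`e1 r` for every `u ≤ r`.
-/

set_option autoImplicit false

namespace Vale.Agent.P122.RV

open Finset

variable {K : ℕ} [NeZero K]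

/-- window sum -/
def WS (x : ZMod K → ℝ) (n : ℕ) (k : ZMod K) : ℝ := ∑ i ∈ range n, x (k + ((i : ℕ) : ZMod K))

omit [NeZero K] in
lemma WS_add (x : ZMod K → ℝ) (m n : ℕ) (k : ZMod K) :
    WS x (m + n) k = WS x m k + WS x n (k + ((m : ℕ) : ZMod K)) := by
  unfold WS
  rw [Finset.sum_range_add]
  congr 1
  apply Finset.sum_congr rfl
  intro i _
  push_cast
  ring_nf

omit [NeZero K] in
lemma WS_mul (x : ZMod K → ℝ) (n : ℕ) (k : ZMod K) (N : ℕ) :
    WS x (N * n) k = ∑ j ∈ range N, WS x n (k + ((j * n : ℕ) : ZMod K)) := by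
  induction N with
  | zero => simp [WS]
  | succ N ih => rw [Nat.succ_mul, WS_add, ih, Finset.sum_range_succ]

omit [NeZero K] in
lemma WS_bound {x : ZMod K → ℝ} (h0 : ∀ k, 0 ≤ x k) (h2 : ∀ k, x k ≤ 2) (n : ℕ) (k : ZMod K) :
    0 ≤ WS x n k ∧ WS x n k ≤ 2 * n := by
  constructor
  · exact Finset.sum_nonneg fun i _ => h0 _
  · calc WS x n k ≤ ∑ i ∈ range n, (2 : ℝ) := Finset.sum_le_sum fun i _ => h2 _
      _ = 2 * n := by simp [mul_comm]

/-- the energy at the scale `n` -/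
noncomputable def Phi (x : ZMod K → ℝ) (n : ℕ) : ℝ := ∑ k, (WS x n k / n) ^ 2

lemma Phi_nonneg (x : ZMod K → ℝ) (n : ℕ) : 0 ≤ Phi x n := Finset.sum_nonneg fun _ _ => sq_nonneg _

lemma Phi_le {x : ZMod K → ℝ} (h0 : ∀ k, 0 ≤ x k) (h2 : ∀ k, x k ≤ 2) (n : ℕ) :
    Phi x n ≤ 4 * K := by
  have : ∀ k ∈ (Finset.univ : Finset (ZMod K)), (WS x n k / n) ^ 2 ≤ 4 := by
    intro k _
    obtain ⟨ha, hb⟩ := WS_bound h0 h2 n k
    rcases Nat.eq_zero_or_pos n with h | h
    · subst h; simp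
    · have hn : (0 : ℝ) < n := by exact_mod_cast h
      have h1 : WS x n k / n ≤ 2 := by rw [div_le_iff₀ hn]; linarith
      have h3 : 0 ≤ WS x n k / n := by positivity
      nlinarith
  calc Phi x n ≤ ∑ _k : ZMod K, (4 : ℝ) := Finset.sum_le_sum this
    _ = 4 * K := by simp [ZMod.card, mul_comm]

lemma sum_shift (f : ZMod K → ℝ) (c : ZMod K) : ∑ k, f (k + c) = ∑ k, f k :=
  Equiv.sum_comp (Equiv.addRight c) f

lemma energy (x : ZMod K → ℝ) {n N : ℕ} (hn : 0 < n) (hN : 0 < N) :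
    ∑ k, ∑ j ∈ range N, (WS x n (k + ((j * n : ℕ) : ZMod K)) / n - WS x (N * n) k / (N * n : ℕ)) ^ 2 =
      N * (Phi x n - Phi x (N * n)) := by
  have hn' : (n : ℝ) ≠ 0 := by positivity
  have hN' : (N : ℝ) ≠ 0 := by positivity
  have key : ∀ k : ZMod K,
      ∑ j ∈ range N, (WS x n (k + ((j * n : ℕ) : ZMod K)) / n - WS x (N * n) k / (N * n : ℕ)) ^ 2 =
      ∑ j ∈ range N, (WS x n (k + ((j * n : ℕ) : ZMod K)) / n) ^ 2 -
        N * (WS x (N * n) k / (N * n : ℕ)) ^ 2 := by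
    intro k
    set s := WS x (N * n) k / (N * n : ℕ) with hs
    have h1 : ∑ j ∈ range N, WS x n (k + ((j * n : ℕ) : ZMod K)) / n = N * s := by
      rw [← Finset.sum_div, ← WS_mul, hs]
      push_cast
      field_simp
    have h2 : ∀ j ∈ range N, (WS x n (k + ((j * n : ℕ) : ZMod K)) / n - s) ^ 2 =
        (WS x n (k + ((j * n : ℕ) : ZMod K)) / n) ^ 2 -
          2 * s * (WS x n (k + ((j * n : ℕ) : ZMod K)) / n) + s ^ 2 := by
      intro j _; ring
    rw [Finset.sum_congr rfl h2, Finset.sum_add_distrib, Finset.sum_sub_distrib, ← Finset.mul_sum,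
      h1, Finset.sum_const, Finset.card_range]
    simp only [nsmul_eq_mul]
    ring
  rw [Finset.sum_congr rfl fun k _ => key k, Finset.sum_sub_distrib, Finset.sum_comm,
    ← Finset.mul_sum]
  have h3 : ∀ j ∈ range N, ∑ k, (WS x n (k + ((j * n : ℕ) : ZMod K)) / n) ^ 2 = Phi x n := by
    intro j _
    exact sum_shift (fun k => (WS x n k / n) ^ 2) _
  rw [Finset.sum_congr rfl h3]
  simp only [Finset.sum_const, Finset.card_range, nsmul_eq_mul]
  unfold Phi
  ring

/-- total deviation of the slopes of the parts from the slope of the window -/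
noncomputable def Tdev (x : ZMod K → ℝ) (n N : ℕ) (k : ZMod K) : ℝ :=
  ∑ j ∈ range N, |WS x n (k + ((j * n : ℕ) : ZMod K)) / n - WS x (N * n) k / (N * n : ℕ)|

lemma Tdev_sq (x : ZMod K → ℝ) {n N : ℕ} (hn : 0 < n) (hN : 0 < N) :
    ∑ k, Tdev x n N k ^ 2 ≤ (N : ℝ) ^ 2 * (Phi x n - Phi x (N * n)) := by
  have h1 : ∀ k ∈ (Finset.univ : Finset (ZMod K)), Tdev x n N k ^ 2 ≤
      N * ∑ j ∈ range N,
        (WS x n (k + ((j * n : ℕ) : ZMod K)) / n - WS x (N * n) k / (N * n : ℕ)) ^ 2 := by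
    intro k _
    have := sq_sum_le_card_mul_sum_sq (s := range N)
      (f := fun j => |WS x n (k + ((j * n : ℕ) : ZMod K)) / n - WS x (N * n) k / (N * n : ℕ)|)
    simpa [Tdev, sq_abs] using this
  calc ∑ k, Tdev x n N k ^ 2 ≤ ∑ k : ZMod K, (N : ℝ) * ∑ j ∈ range N,
        (WS x n (k + ((j * n : ℕ) : ZMod K)) / n - WS x (N * n) k / (N * n : ℕ)) ^ 2 :=
        Finset.sum_le_sum h1
    _ = (N : ℝ) ^ 2 * (Phi x n - Phi x (N * n)) := by
        rw [← Finset.mul_sum, energy x hn hN]; ring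

open Classical in
lemma Tdev_card (x : ZMod K → ℝ) {n N : ℕ} (hn : 0 < n) (hN : 0 < N) {e : ℝ} (he : 0 < e) :
    ((Finset.univ.filter fun k : ZMod K => N * e < Tdev x n N k).card : ℝ) * e ^ 2 ≤
      Phi x n - Phi x (N * n) := by
  have hN' : (0 : ℝ) < N := by exact_mod_cast hN
  set B := Finset.univ.filter fun k : ZMod K => N * e < Tdev x n N k
  have h1 : (B.card : ℝ) * ((N : ℝ) ^ 2 * e ^ 2) ≤ ∑ k ∈ B, Tdev x n N k ^ 2 := by
    calc (B.card : ℝ) * ((N : ℝ) ^ 2 * e ^ 2) = ∑ _k ∈ B, ((N : ℝ) ^ 2 * e ^ 2) := by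
          simp
      _ ≤ ∑ k ∈ B, Tdev x n N k ^ 2 := by
          apply Finset.sum_le_sum
          intro k hk
          have hk' : N * e < Tdev x n N k := (Finset.mem_filter.1 hk).2
          have h0 : 0 < N * e := by positivity
          calc (N : ℝ) ^ 2 * e ^ 2 = (N * e) ^ 2 := by ring
            _ ≤ _ := by gcongr
  have h2 : ∑ k ∈ B, Tdev x n N k ^ 2 ≤ ∑ k, Tdev x n N k ^ 2 :=
    Finset.sum_le_sum_of_subset_of_nonneg (Finset.subset_univ _) fun _ _ _ => sq_nonneg _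
  have h3 := Tdev_sq x hn hN
  have h4 : (N : ℝ) ^ 2 * ((B.card : ℝ) * e ^ 2) ≤ (N : ℝ) ^ 2 * (Phi x n - Phi x (N * n)) := by
    calc (N : ℝ) ^ 2 * ((B.card : ℝ) * e ^ 2) = (B.card : ℝ) * ((N : ℝ) ^ 2 * e ^ 2) := by ring
      _ ≤ _ := h1.trans (h2.trans h3)
  exact le_of_mul_le_mul_left h4 (by positivity)

omit [NeZero K] in
/-- window sums are close to linear -/
lemma lin_dev {x : ZMod K → ℝ} (h0 : ∀ k, 0 ≤ x k) (h2 : ∀ k, x k ≤ 2) {n N : ℕ} (hn : 0 < n)
    (hN : 0 < N) (k : ZMod K) {b : ℕ} (hb : b ≤ N * n) :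
    ∃ j : ℕ, j ≤ N ∧ |WS x b k - (WS x (N * n) k / (N * n : ℕ)) * b -
      n * ∑ i ∈ range j, (WS x n (k + ((i * n : ℕ) : ZMod K)) / n - WS x (N * n) k / (N * n : ℕ))|
        ≤ 2 * n := by
  have hn' : (0 : ℝ) < n := by exact_mod_cast hn
  refine ⟨b / n, Nat.div_le_of_le_mul (by rw [Nat.mul_comm]; exact hb), ?_⟩
  set s := WS x (N * n) k / (N * n : ℕ) with hs
  have hs0 : 0 ≤ s := div_nonneg (WS_bound h0 h2 _ _).1 (by positivity)
  have hs2 : s ≤ 2 := by
    rw [hs, div_le_iff₀ (by positivity)]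
    exact (WS_bound h0 h2 _ _).2
  have hdec : b = (b / n) * n + b % n := by rw [Nat.mul_comm]; exact (Nat.div_add_mod b n).symm
  have hmod : b % n < n := Nat.mod_lt _ hn
  have hW : WS x b k = ∑ i ∈ range (b / n), WS x n (k + ((i * n : ℕ) : ZMod K)) +
      WS x (b % n) (k + (((b / n) * n : ℕ) : ZMod K)) := by
    conv_lhs => rw [hdec]
    rw [WS_add, WS_mul]
  have hb' : (b : ℝ) = (b / n : ℕ) * n + (b % n : ℕ) := by exact_mod_cast hdec
  have hsum : n * ∑ i ∈ range (b / n), (WS x n (k + ((i * n : ℕ) : ZMod K)) / n - s) =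
      ∑ i ∈ range (b / n), WS x n (k + ((i * n : ℕ) : ZMod K)) - (b / n : ℕ) * n * s := by
    rw [Finset.sum_sub_distrib, mul_sub, Finset.mul_sum]
    congr 1
    · apply Finset.sum_congr rfl
      intro i _
      field_simp
    · simp; ring
  rw [hsum, hW, hb']
  obtain ⟨ha, hc⟩ := WS_bound h0 h2 (b % n) (k + (((b / n) * n : ℕ) : ZMod K))
  have hm : ((b % n : ℕ) : ℝ) ≤ n := by exact_mod_cast hmod.le
  have hm0 : (0 : ℝ) ≤ ((b % n : ℕ) : ℝ) := by positivity
  rw [abs_le]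
  constructor <;> nlinarith

omit [NeZero K] in
lemma lin_dev2 {x : ZMod K → ℝ} (h0 : ∀ k, 0 ≤ x k) (h2 : ∀ k, x k ≤ 2) {n N : ℕ} (hn : 0 < n)
    (hN : 0 < N) (k : ZMod K) {a b : ℕ} (ha : a ≤ N * n) (hb : b ≤ N * n) :
    |(WS x b k - WS x a k) - (WS x (N * n) k / (N * n : ℕ)) * (b - a)| ≤
      n * Tdev x n N k + 4 * n := by
  have hn' : (0 : ℝ) < n := by exact_mod_cast hn
  obtain ⟨j, hj, h1⟩ := lin_dev h0 h2 hn hN k hb
  obtain ⟨i, hi, h3⟩ := lin_dev h0 h2 hn hN k ha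
  set s := WS x (N * n) k / (N * n : ℕ) with hs
  set f : ℕ → ℝ := fun i => WS x n (k + ((i * n : ℕ) : ZMod K)) / n - s with hf
  have key : ∀ i j : ℕ, i ≤ N → j ≤ N → |∑ l ∈ range j, f l - ∑ l ∈ range i, f l| ≤ Tdev x n N k := by
    have aux : ∀ i j : ℕ, i ≤ j → j ≤ N →
        |∑ l ∈ range j, f l - ∑ l ∈ range i, f l| ≤ Tdev x n N k := by
      intro i j hij hj
      rw [← Finset.sum_Ico_eq_sub _ hij]
      calc |∑ l ∈ Finset.Ico i j, f l| ≤ ∑ l ∈ Finset.Ico i j, |f l| := Finset.abs_sum_le_sum_abs _ _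
        _ ≤ ∑ l ∈ range N, |f l| := by
            apply Finset.sum_le_sum_of_subset_of_nonneg
            · intro l hl
              rw [Finset.mem_Ico] at hl
              rw [Finset.mem_range]
              omega
            · intro _ _ _; exact abs_nonneg _
        _ = Tdev x n N k := rfl
    intro i j hi hj
    rcases le_total i j with h | h
    · exact aux i j h hj
    · rw [abs_sub_comm]; exact aux j i h hi
  have h4 := key i j hi hj
  have h5 : (WS x b k - WS x a k) - s * (b - a) =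
      (WS x b k - s * b - n * ∑ l ∈ range j, f l) - (WS x a k - s * a - n * ∑ l ∈ range i, f l) +
        n * (∑ l ∈ range j, f l - ∑ l ∈ range i, f l) := by ring
  rw [h5]
  have h6 : |(n : ℝ) * (∑ l ∈ range j, f l - ∑ l ∈ range i, f l)| ≤ n * Tdev x n N k := by
    rw [abs_mul, abs_of_pos hn']
    exact mul_le_mul_of_nonneg_left h4 hn'.le
  calc _ ≤ |(WS x b k - s * b - n * ∑ l ∈ range j, f l) -
          (WS x a k - s * a - n * ∑ l ∈ range i, f l)| +
        |(n : ℝ) * (∑ l ∈ range j, f l - ∑ l ∈ range i, f l)| := abs_add_le _ _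
    _ ≤ (|WS x b k - s * b - n * ∑ l ∈ range j, f l| +
          |WS x a k - s * a - n * ∑ l ∈ range i, f l|) +
        |(n : ℝ) * (∑ l ∈ range j, f l - ∑ l ∈ range i, f l)| := by
          gcongr
          exact abs_sub _ _
    _ ≤ _ := by linarith

/-- right half minus left half -/
def Bal (x : ZMod K → ℝ) (r u : ℕ) (k : ZMod K) : ℝ :=
  ∑ i ∈ Finset.Ico u r, x (k + ((i : ℕ) : ZMod K)) -
    ∑ i ∈ Finset.Ico u r, x (k - 1 - ((i : ℕ) : ZMod K))

omit [NeZero K] in
lemma Bal_eq (x : ZMod K → ℝ) {r u : ℕ} (hu : u ≤ r) (k : ZMod K) :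
    Bal x r u (k + ((r : ℕ) : ZMod K)) =
      (WS x (2 * r) k - WS x (r + u) k) - (WS x (r - u) k - WS x 0 k) := by
  unfold Bal
  congr 1
  · have h1 : WS x (2 * r) k - WS x (r + u) k =
        ∑ i ∈ Finset.Ico (r + u) (2 * r), x (k + ((i : ℕ) : ZMod K)) := by
      unfold WS
      rw [Finset.sum_Ico_eq_sub _ (by omega)]
    rw [h1]
    have : Finset.Ico (r + u) (2 * r) = (Finset.Ico u r).map (addLeftEmbedding r) := by
      rw [Finset.map_add_left_Ico]
      congr 1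
      omega
    rw [this, Finset.sum_map]
    apply Finset.sum_congr rfl
    intro i _
    simp only [addLeftEmbedding_apply]
    push_cast
    ring_nf
  · have h1 : WS x 0 k = 0 := by simp [WS]
    rw [h1, sub_zero]
    unfold WS
    have h2 : ∀ i ∈ Finset.Ico u r, x (k + ((r : ℕ) : ZMod K) - 1 - ((i : ℕ) : ZMod K)) =
        x (k + ((r - 1 - i : ℕ) : ZMod K)) := by
      intro i hi
      rw [Finset.mem_Ico] at hi
      have : ((r - 1 - i : ℕ) : ZMod K) = (r : ZMod K) - 1 - (i : ZMod K) := by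
        rw [Nat.sub_sub, Nat.cast_sub (by omega)]
        push_cast
        ring
      rw [this]
      ring_nf
    rw [Finset.sum_congr rfl h2]
    apply Finset.sum_bij' (fun i _ => r - 1 - i) (fun i _ => r - 1 - i)
    · intro i hi; rw [Finset.mem_Ico] at hi; rw [Finset.mem_range]; omega
    · intro i hi; rw [Finset.mem_range] at hi; rw [Finset.mem_Ico]; omega
    · intro i hi; rw [Finset.mem_Ico] at hi; omega
    · intro i hi; rw [Finset.mem_range] at hi; omega
    · intro i hi; rfl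

open Classical in
/-- one scale: few unbalanced points -/
lemma one_scale {x : ZMod K → ℝ} (h0 : ∀ k, 0 ≤ x k) (h2 : ∀ k, x k ≤ 2) {n N r : ℕ} (hn : 0 < n)
    (hr : N * n = 2 * r) {e : ℝ} (he : 0 < e) (hN : 32 ≤ e * N)
    (hPhi : Phi x n - Phi x (N * n) ≤ e ^ 3 / 64 * K) :
    ((Finset.univ.filter fun k : ZMod K => ∃ u ≤ r, e * r < |Bal x r u k|).card : ℝ) ≤ e * K := by
  have hN0 : 0 < N := by
    rcases Nat.eq_zero_or_pos N with h | h
    · subst h; norm_num at hN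
    · exact h
  have hn' : (0 : ℝ) < n := by exact_mod_cast hn
  have hN' : (0 : ℝ) < N := by exact_mod_cast hN0
  have hr' : (N : ℝ) * n = 2 * r := by exact_mod_cast hr
  -- bad points are shifts of points with a large deviation
  have hsub : (Finset.univ.filter fun k : ZMod K => ∃ u ≤ r, e * r < |Bal x r u k|) ⊆
      (Finset.univ.filter fun k : ZMod K => N * (e / 8) < Tdev x n N k).map
        (Equiv.addRight ((r : ℕ) : ZMod K)).toEmbedding := by
    intro k hk
    rw [Finset.mem_filter] at hk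
    obtain ⟨-, u, hu, hlt⟩ := hk
    rw [Finset.mem_map]
    refine ⟨k - ((r : ℕ) : ZMod K), ?_, by simp⟩
    rw [Finset.mem_filter]
    refine ⟨Finset.mem_univ _, ?_⟩
    by_contra hcon
    push Not at hcon
    set k' := k - ((r : ℕ) : ZMod K) with hk'
    have hkk : k = k' + ((r : ℕ) : ZMod K) := by rw [hk']; ring
    rw [hkk, Bal_eq x hu] at hlt
    have d1 := lin_dev2 h0 h2 hn hN0 k' (a := r + u) (b := 2 * r) (by omega) (by omega)
    have d2 := lin_dev2 h0 h2 hn hN0 k' (a := 0) (b := r - u) (by omega) (by omega)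
    set s := WS x (N * n) k' / (N * n : ℕ)
    have hcast : ((r - u : ℕ) : ℝ) = r - u := by rw [Nat.cast_sub hu]
    have e1 : ((2 * r : ℕ) : ℝ) - ((r + u : ℕ) : ℝ) = ((r - u : ℕ) : ℝ) - ((0 : ℕ) : ℝ) := by
      rw [hcast]; push_cast; ring
    rw [e1] at d1
    have hT : (n : ℝ) * Tdev x n N k' ≤ e / 4 * r := by
      calc (n : ℝ) * Tdev x n N k' ≤ n * (N * (e / 8)) := mul_le_mul_of_nonneg_left hcon hn'.le
        _ = e / 8 * (N * n) := by ring
        _ = e / 4 * r := by rw [hr']; ring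
    have h4n : 8 * (n : ℝ) ≤ e / 2 * r := by
      have : 32 * (n : ℝ) ≤ e * N * n := mul_le_mul_of_nonneg_right hN hn'.le
      have h5 : e * N * n = e * (2 * r) := by rw [mul_assoc, hr']
      rw [h5] at this
      linarith
    have hfin : |(WS x (2 * r) k' - WS x (r + u) k') - (WS x (r - u) k' - WS x 0 k')| ≤ e * r := by
      have h6 : (WS x (2 * r) k' - WS x (r + u) k') - (WS x (r - u) k' - WS x 0 k') =
          ((WS x (2 * r) k' - WS x (r + u) k') - s * (((r - u : ℕ) : ℝ) - ((0 : ℕ) : ℝ))) -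
          ((WS x (r - u) k' - WS x 0 k') - s * (((r - u : ℕ) : ℝ) - ((0 : ℕ) : ℝ))) := by ring
      rw [h6]
      refine (abs_sub _ _).trans ?_
      linarith
    linarith
  have hcard := Finset.card_le_card hsub
  rw [Finset.card_map] at hcard
  have h7 := Tdev_card x hn hN0 (e := e / 8) (by positivity)
  have h8 : ((Finset.univ.filter fun k : ZMod K => N * (e / 8) < Tdev x n N k).card : ℝ) * (e / 8) ^ 2
      ≤ e * K * (e / 8) ^ 2 := by
    refine h7.trans (hPhi.trans (le_of_eq ?_))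
    ring
  have h9 := le_of_mul_le_mul_right h8 (by positivity)
  refine le_trans ?_ h9
  exact_mod_cast hcard

open Classical in
/-- **Quantitative homogeneity.** -/
theorem QH (e r0 : ℝ) (he : 0 < e) (hr0 : 0 < r0) :
    ∃ ρ : ℝ, 0 < ρ ∧ ∀ K : ℕ, 1 ≤ ρ * K → ∀ [NeZero K] (x : ZMod K → ℝ),
      (∀ k, 0 ≤ x k) → (∀ k, x k ≤ 2) → ∃ r : ℕ, ρ * K ≤ r ∧ (r : ℝ) ≤ r0 * K ∧
        ((Finset.univ.filter fun k : ZMod K => ∃ u ≤ r, e * r < |Bal x r u k|).card : ℝ) ≤ e * K := by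
  obtain ⟨N, hN⟩ : ∃ N : ℕ, 32 ≤ e * N := by
    obtain ⟨N, hN⟩ := exists_nat_ge (32 / e)
    exact ⟨N, by rw [div_le_iff₀ he] at hN; linarith⟩
  have hN0 : 0 < N := by
    rcases Nat.eq_zero_or_pos N with h | h
    · subst h; norm_num at hN
    · exact h
  obtain ⟨J, hJ⟩ := exists_nat_ge (256 / e ^ 3)
  have hJ0 : 0 < J := by
    rcases Nat.eq_zero_or_pos J with h | h
    · subst h
      have : 0 < 256 / e ^ 3 := by positivity
      simp at hJ
      linarith
    · exact h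
  have hJ' : (0 : ℝ) < J := by exact_mod_cast hJ0
  have hN1 : (1 : ℝ) ≤ (N : ℝ) ^ J := one_le_pow₀ (by exact_mod_cast hN0)
  have hNJ : (0 : ℝ) < (N : ℝ) ^ J := by positivity
  refine ⟨r0 / (2 * (N : ℝ) ^ J), by positivity, ?_⟩
  intro K hK _ x h0 h2
  have hKpos : (0 : ℝ) < K := by
    by_contra h
    have hK0 : (K : ℝ) = 0 := le_antisymm (not_lt.1 h) (Nat.cast_nonneg K)
    rw [hK0] at hK
    norm_num at hK
  -- the base scale
  set q : ℕ := ⌊r0 * K / (N : ℝ) ^ J⌋₊ with hq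
  have hyy : 2 ≤ r0 * K / (N : ℝ) ^ J := by
    have : r0 / (2 * (N : ℝ) ^ J) * K = (r0 * K / (N : ℝ) ^ J) / 2 := by
      field_simp
    rw [this] at hK
    linarith
  have hq1 : (q : ℝ) ≤ r0 * K / (N : ℝ) ^ J := Nat.floor_le (by positivity)
  have hq2 : r0 * K / (N : ℝ) ^ J < q + 1 := Nat.lt_floor_add_one _
  have hqpos : 0 < q := by
    rw [hq]; exact Nat.floor_pos.2 (by linarith)
  have hq3 : r0 / (2 * (N : ℝ) ^ J) * K ≤ q := by
    have : r0 / (2 * (N : ℝ) ^ J) * K = (r0 * K / (N : ℝ) ^ J) / 2 := by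
      field_simp
    rw [this]
    have hq1' : (1 : ℝ) ≤ q := by exact_mod_cast hqpos
    linarith
  -- scales
  set n : ℕ → ℕ := fun j => 2 * N ^ (J - j) * q with hn
  have hstep : ∀ j < J, N * n (j + 1) = n j := by
    intro j hj
    simp only [hn]
    have : J - j = (J - (j + 1)) + 1 := by omega
    rw [this, pow_succ]
    ring
  have hnpos : ∀ j, 0 < n j := fun j => by simp only [hn]; positivity
  -- pigeonhole
  have hpig : ∃ j < J, Phi x (n (j + 1)) - Phi x (n j) ≤ e ^ 3 / 64 * K := by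
    by_contra hcon
    push Not at hcon
    have h1 : ∑ j ∈ range J, (Phi x (n (j + 1)) - Phi x (n j)) = Phi x (n J) - Phi x (n 0) :=
      Finset.sum_range_sub (fun j => Phi x (n j)) J
    have h3 : ∑ j ∈ range J, (e ^ 3 / 64 * K : ℝ) < ∑ j ∈ range J, (Phi x (n (j + 1)) - Phi x (n j)) := by
      apply Finset.sum_lt_sum_of_nonempty
      · exact ⟨0, Finset.mem_range.2 hJ0⟩
      · intro j hj
        exact hcon j (Finset.mem_range.1 hj)
    rw [h1, Finset.sum_const, Finset.card_range, nsmul_eq_mul] at h3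
    have h4 := Phi_le h0 h2 (n J)
    have h5 := Phi_nonneg x (n 0)
    have h6 : 4 * (K : ℝ) ≤ J * (e ^ 3 / 64 * K) := by
      have h7 : 256 ≤ J * e ^ 3 := by
        rw [div_le_iff₀ (by positivity)] at hJ
        exact hJ
      calc 4 * (K : ℝ) = 256 * (K / 64) := by ring
        _ ≤ (J * e ^ 3) * (K / 64) := by gcongr
        _ = _ := by ring
    linarith
  obtain ⟨j, hj, hPhi⟩ := hpig
  refine ⟨N ^ (J - j) * q, ?_, ?_, ?_⟩
  · refine hq3.trans ?_
    push_cast
    have : (1 : ℝ) ≤ (N : ℝ) ^ (J - j) := one_le_pow₀ (by exact_mod_cast hN0)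
    have hq0 : (0 : ℝ) ≤ q := by positivity
    nlinarith
  · push_cast
    have h1 : (N : ℝ) ^ (J - j) ≤ (N : ℝ) ^ J :=
      pow_le_pow_right₀ (by exact_mod_cast hN0) (Nat.sub_le _ _)
    calc (N : ℝ) ^ (J - j) * q ≤ (N : ℝ) ^ J * (r0 * K / (N : ℝ) ^ J) := by gcongr
      _ = r0 * K := by field_simp
  · have hr : N * n (j + 1) = 2 * (N ^ (J - j) * q) := by
      rw [hstep j hj]; simp only [hn]; ring
    refine one_scale h0 h2 (hnpos (j + 1)) hr he hN ?_
    rw [hstep j hj]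
    exact hPhi

end Vale.Agent.P122.RV
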