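import Vale.Agent.P122.C.RVDefs
import Vale.Agent.P122.H11.QH

/-!
# P122 / RV : the real variable part (helper11)

`stRV : StRV`.
-/

set_option autoImplicit false

namespace Vale.Agent.P122.RV

open Finset Vale.Agent.P122.C

/-- increments on the cyclic mesh -/
noncomputable def xof (K : ℕ) (M : ℕ → ℝ) (z : ZMod K) : ℝ := K * (M (z.val + 1) - M z.val)

lemma xof_nat {K : ℕ} (M : ℕ → ℝ) {i : ℕ} (hi : i < K) :
    xof K M (i : ZMod K) = K * (M (i + 1) - M i) := by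
  unfold xof
  rw [ZMod.val_natCast_of_lt hi]

lemma Bal_nat {K : ℕ} (M : ℕ → ℝ) {r u k : ℕ} (hu : u ≤ r) (hrk : r ≤ k) (hk : k + r ≤ K) :
    Bal (xof K M) r u (k : ZMod K) = K * ((M (k + r) - M (k + u)) - (M (k - u) - M (k - r))) := by
  unfold Bal
  have h1 : ∑ i ∈ Finset.Ico u r, xof K M ((k : ZMod K) + ((i : ℕ) : ZMod K)) =
      K * (M (k + r) - M (k + u)) := by
    have : ∀ i ∈ Finset.Ico u r, xof K M ((k : ZMod K) + ((i : ℕ) : ZMod K)) =
        K * (M (k + (i + 1)) - M (k + i)) := by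
      intro i hi
      rw [Finset.mem_Ico] at hi
      rw [← Nat.cast_add, xof_nat M (by omega)]
      rfl
    rw [Finset.sum_congr rfl this, ← Finset.mul_sum, Finset.sum_Ico_eq_sub _ hu,
      Finset.sum_range_sub (fun i => M (k + i)), Finset.sum_range_sub (fun i => M (k + i))]
    ring
  have h2 : ∑ i ∈ Finset.Ico u r, xof K M ((k : ZMod K) - 1 - ((i : ℕ) : ZMod K)) =
      K * (M (k - u) - M (k - r)) := by
    have : ∀ i ∈ Finset.Ico u r, xof K M ((k : ZMod K) - 1 - ((i : ℕ) : ZMod K)) =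
        K * (M (k - i) - M (k - (i + 1))) := by
      intro i hi
      rw [Finset.mem_Ico] at hi
      have e1 : (k : ZMod K) - 1 - ((i : ℕ) : ZMod K) = ((k - (i + 1) : ℕ) : ZMod K) := by
        rw [Nat.cast_sub (by omega)]
        push_cast
        ring
      rw [e1, xof_nat M (by omega)]
      have e2 : k - (i + 1) + 1 = k - i := by omega
      rw [e2]
    rw [Finset.sum_congr rfl this, ← Finset.mul_sum, Finset.sum_Ico_eq_sub _ hu,
      Finset.sum_range_sub' (fun i => M (k - i)), Finset.sum_range_sub' (fun i => M (k - i))]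
    ring
  rw [h1, h2]
  ring

lemma xof_bounds {K : ℕ} (hK : 0 < K) {M : ℕ → ℝ} (h1 : ∀ i j, i ≤ j → j ≤ K → M i ≤ M j)
    (h2 : ∀ i j, i ≤ j → j ≤ K → M j - M i ≤ 2 * ((j:ℝ) - i) / K) (z : ZMod K) :
    0 ≤ xof K M z ∧ xof K M z ≤ 2 := by
  have : NeZero K := ⟨hK.ne'⟩
  have hz : z.val < K := ZMod.val_lt z
  have hK' : (0 : ℝ) < K := by exact_mod_cast hK
  unfold xof
  constructor
  · have := h1 z.val (z.val + 1) (by omega) (by omega)
    have : 0 ≤ M (z.val + 1) - M z.val := by linarith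
    positivity
  · have := h2 z.val (z.val + 1) (by omega) (by omega)
    push_cast at this
    have h3 : (z.val : ℝ) + 1 - z.val = 1 := by ring
    rw [h3] at this
    calc (K : ℝ) * (M (z.val + 1) - M z.val) ≤ K * (2 * 1 / K) :=
          mul_le_mul_of_nonneg_left this hK'.le
      _ = 2 := by field_simp

open Classical in
/-- few bad integers -/
lemma bad_nat {K : ℕ} [NeZero K] (p : ZMod K → Prop) {T : ℝ}
    (h : ((Finset.univ.filter fun k : ZMod K => p k).card : ℝ) ≤ T) :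
    (((Finset.range K).filter fun i : ℕ => p (i : ZMod K)).card : ℝ) ≤ T := by
  refine le_trans ?_ h
  have : ((Finset.range K).filter fun i : ℕ => p (i : ZMod K)).card ≤
      (Finset.univ.filter fun k : ZMod K => p k).card := by
    apply Finset.card_le_card_of_injOn (fun i : ℕ => (i : ZMod K))
    · intro i hi
      have hi' := Finset.mem_filter.1 (Finset.mem_coe.1 hi)
      simpa using hi'.2
    · intro i hi j hj hij
      have hi' := Finset.mem_range.1 (Finset.mem_filter.1 (Finset.mem_coe.1 hi)).1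
      have hj' := Finset.mem_range.1 (Finset.mem_filter.1 (Finset.mem_coe.1 hj)).1
      have := congrArg ZMod.val hij
      simpa [ZMod.val_natCast_of_lt hi', ZMod.val_natCast_of_lt hj'] using this
  exact_mod_cast this

open Classical in
/-- abstract path argument -/
lemma path {K : ℕ} {V E : ℕ → ℝ} {a b R : ℝ} {i0 : ℕ} (B : Finset ℕ) (ha : 0 ≤ a)
    (hb : 0 ≤ b)
    (hend : ∀ i, i0 ≤ i → i ≤ K → (¬ ∃ j, i < j ∧ j ≤ K ∧
      (V j ≤ V i + 3 * (E j - E i) + a * ((j : ℝ) - i) ∨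
        (i ∈ B ∧ j = i + 1 ∧ V j ≤ V i + 3 * (E j - E i) + b))) →
      V K ≤ V i + 3 * (E K - E i) + R) :
    ∀ d i, d = K - i → i0 ≤ i → i ≤ K →
      V K ≤ V i + 3 * (E K - E i) + a * ((K : ℝ) - i) + b * ((B.filter fun k => i ≤ k).card : ℝ) + R := by
  intro d
  induction d using Nat.strong_induction_on with
  | _ d ih =>
    intro i hd hi0 hiK
    by_cases hex : ∃ j, i < j ∧ j ≤ K ∧
      (V j ≤ V i + 3 * (E j - E i) + a * ((j : ℝ) - i) ∨
        (i ∈ B ∧ j = i + 1 ∧ V j ≤ V i + 3 * (E j - E i) + b))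
    · obtain ⟨j, hij, hjK, hj⟩ := hex
      have h1 := ih (K - j) (by omega) j rfl (by omega) hjK
      have hij' : (i : ℝ) < j := by exact_mod_cast hij
      rcases hj with hj | ⟨hB, rfl, hj⟩
      · have h2 : ((B.filter fun k => j ≤ k).card : ℝ) ≤ ((B.filter fun k => i ≤ k).card : ℝ) := by
          have : (B.filter fun k => j ≤ k).card ≤ (B.filter fun k => i ≤ k).card := by
            apply Finset.card_le_card
            intro k hk
            rw [Finset.mem_filter] at hk ⊢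
            exact ⟨hk.1, by omega⟩
          exact_mod_cast this
        have h3 : b * ((B.filter fun k => j ≤ k).card : ℝ) ≤ b * ((B.filter fun k => i ≤ k).card : ℝ) :=
          mul_le_mul_of_nonneg_left h2 hb
        linarith
      · have h2 : ((B.filter fun k => i + 1 ≤ k).card : ℝ) + 1 ≤ ((B.filter fun k => i ≤ k).card : ℝ) := by
          have : (B.filter fun k => i + 1 ≤ k).card + 1 ≤ (B.filter fun k => i ≤ k).card := by
            have hnot : i ∉ B.filter fun k => i + 1 ≤ k := by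
              simp
            rw [← Finset.card_insert_of_notMem hnot]
            apply Finset.card_le_card
            intro k hk
            rw [Finset.mem_insert, Finset.mem_filter] at hk
            rw [Finset.mem_filter]
            rcases hk with rfl | hk
            · exact ⟨hB, le_rfl⟩
            · exact ⟨hk.1, by omega⟩
          exact_mod_cast this
        have h3 : b * (((B.filter fun k => i + 1 ≤ k).card : ℝ) + 1) ≤
            b * ((B.filter fun k => i ≤ k).card : ℝ) := mul_le_mul_of_nonneg_left h2 hb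
        have h4 : a * ((K : ℝ) - ((i + 1 : ℕ) : ℝ)) ≤ a * ((K : ℝ) - i) := by
          apply mul_le_mul_of_nonneg_left _ ha
          push_cast; linarith
        linarith
    · have h1 := hend i hi0 hiK hex
      have h2 : 0 ≤ a * ((K : ℝ) - i) := by
        apply mul_nonneg ha
        have : (i : ℝ) ≤ K := by exact_mod_cast hiK
        linarith
      have h3 : 0 ≤ b * ((B.filter fun k => i ≤ k).card : ℝ) := by positivity
      linarith

/-- numerical relations between the scales of the path -/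
structure Num (C κ e c0 c1 : ℝ) (K r1 r2 tn hn i0 : ℕ) : Prop where
  hC : 1 ≤ C
  hκ : 0 < κ
  he : 0 < e
  he4 : e ≤ 1 / 4
  eκ : e * κ ≤ 1
  hK : 0 < K
  c0K : c0 * K = e * r1
  c0pos : 0 < c0
  er1 : 16 * C ≤ e * r1
  er2 : C ≤ e * r2
  X16 : 16 * C ≤ e * κ * c0 * K
  tnC : C * tn ≤ e * κ * c0 * K / 8
  hn1 : (hn : ℝ) ≤ κ * c0 * K / 4
  hn2 : κ * c0 * K / 4 < hn + 1
  r2tn : r2 ≤ tn
  hnpos : 0 < hn
  sum : hn + 2 * tn ≤ r1
  r1i0 : r1 ≤ i0
  r1K : 4 * r1 ≤ K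
  i0K : i0 ≤ K
  r1p : 0 < r1
  r2p : 0 < r2
  c1le : c1 ≤ c0 / 2
  r2κ : (r2 : ℝ) / K ≤ κ * c1

section steps

variable {C κ e c0 c1 : ℝ} {K r1 r2 tn hn i0 : ℕ} {V E M m α g : ℕ → ℝ}

/-- neighbours have excess at least `c0 / 2` -/
lemma Num.mc (N : Num C κ e c0 c1 K r1 r2 tn hn i0) (P : Prof C κ c1 K V E M m α g) {i c : ℕ}
    (hi : i ≤ K) (hc : c ≤ K) (h1 : i ≤ c + tn) (h2 : c ≤ i + tn) (hm : c0 < m i) :
    c0 / 2 ≤ m c := by
  have hKr : (0 : ℝ) < K := by exact_mod_cast N.hK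
  have h3 := P.mLip i c hi hc
  have h4 : |(i : ℝ) - c| ≤ tn := by
    have h1' : (i : ℝ) ≤ c + tn := by exact_mod_cast h1
    have h2' : (c : ℝ) ≤ i + tn := by exact_mod_cast h2
    rw [abs_le]; constructor <;> linarith
  have h5 : C * |(i : ℝ) - c| / K ≤ e * κ * c0 / 8 := by
    rw [div_le_iff₀ hKr]
    calc C * |(i : ℝ) - c| ≤ C * tn := mul_le_mul_of_nonneg_left h4 (by linarith [N.hC])
      _ ≤ e * κ * c0 * K / 8 := N.tnC
      _ = e * κ * c0 / 8 * K := by ring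
  have h6 : C / K ≤ e * κ * c0 / 16 := by
    rw [div_le_iff₀ hKr]
    linarith [N.X16]
  have h7 : e * κ * c0 ≤ c0 := by
    calc e * κ * c0 ≤ 1 * c0 := mul_le_mul_of_nonneg_right N.eκ N.c0pos.le
      _ = c0 := one_mul _
  have h8 := (abs_le.1 h3).2
  have h9 := N.c0pos
  linarith

/-- the step with the tubes themselves -/
lemma Num.stepS (N : Num C κ e c0 c1 K r1 r2 tn hn i0) (P : Prof C κ c1 K V E M m α g) {i : ℕ}
    (hir1 : r1 ≤ i) (hend : i + r1 ≤ K) (hm : m i ≤ c0)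
    (hB : |Bal (xof K M) r1 0 (i : ZMod K)| ≤ e * r1) :
    V (i + r1) ≤ V i + 3 * (E (i + r1) - E i) + 3 * e / K * (((i + r1 : ℕ) : ℝ) - i) := by
  have hKr : (0 : ℝ) < K := by exact_mod_cast N.hK
  have h1 := P.S i (i + r1) (by omega) (by omega) hend
  rw [Bal_nat M (Nat.zero_le _) hir1 hend] at hB
  have h3 : 2 * i - (i + r1) = i - r1 := by omega
  rw [h3] at h1
  simp only [Nat.add_zero, Nat.sub_zero] at hB
  have h4 : (M (i + r1) - M i) - (M i - M (i - r1)) ≤ e * r1 / K := by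
    rw [le_div_iff₀ hKr]
    have := (abs_le.1 hB).2
    linarith
  have h5 : C / K ≤ e * r1 / K := by
    apply div_le_div_of_nonneg_right _ hKr.le
    linarith [N.er1, N.hC]
  have h6 : 3 * e / K * (((i + r1 : ℕ) : ℝ) - i) = 3 * (e * r1 / K) := by push_cast; ring
  have h7 : c0 = e * r1 / K := by rw [eq_div_iff hKr.ne']; exact N.c0K
  rw [h6]
  rw [h7] at hm
  linarith

/-- the step with a fat box of a neighbour -/
lemma Num.stepA (N : Num C κ e c0 c1 K r1 r2 tn hn i0) (P : Prof C κ c1 K V E M m α g) {i c : ℕ}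
    (hir1 : r1 ≤ i) (hend : i + r1 ≤ K) (hm : c0 < m i) (h1 : i ≤ c + tn) (h2 : c ≤ i + tn)
    (hfat : κ * m c < α c - (c : ℝ) / K) :
    V (i + hn) ≤ V i + 3 * (E (i + hn) - E i) + 3 * e / K * (((i + hn : ℕ) : ℝ) - i) := by
  have hKr : (0 : ℝ) < K := by exact_mod_cast N.hK
  have hC0 : 0 ≤ C := by linarith [N.hC]
  have hsum := N.sum
  have hcK : c ≤ K := by omega
  have hmc' := N.mc P (by omega) hcK h1 h2 hm
  have heκ : e * κ * c0 * K ≤ κ * c0 * K := by
    have h0 : 0 ≤ κ * c0 * K := by have := N.hκ; have := N.c0pos; positivity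
    have : e * κ * c0 * K = e * (κ * c0 * K) := by ring
    rw [this]
    have he := N.he4
    nlinarith
  have htn2 : (tn : ℝ) ≤ e * κ * c0 * K / 8 := by
    have h3 : (tn : ℝ) ≤ C * tn := by
      have : (0 : ℝ) ≤ tn := Nat.cast_nonneg _
      nlinarith [N.hC]
    linarith [N.tnC]
  have hαc : ((i + hn : ℕ) : ℝ) / K ≤ α c := by
    have h3 : κ * (c0 / 2) ≤ κ * m c := mul_le_mul_of_nonneg_left hmc' N.hκ.le
    have h4 : ((i + hn : ℕ) : ℝ) ≤ c + (κ * c0 / 2) * K := by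
      have h5 : (i : ℝ) ≤ c + tn := by exact_mod_cast h1
      push_cast
      have h6 : (κ * c0 / 2) * K = κ * c0 * K / 2 := by ring
      rw [h6]
      linarith [N.hn1]
    have h7 : ((i + hn : ℕ) : ℝ) / K ≤ (c : ℝ) / K + κ * c0 / 2 := by
      rw [div_le_iff₀ hKr]
      have : ((c : ℝ) / K + κ * c0 / 2) * K = c + (κ * c0 / 2) * K := by field_simp
      rw [this]; exact h4
    linarith
  have h3 := P.A c i (i + hn) (by omega) (by omega) (by omega) (by omega) hcK hαc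
  have h4 : |(c : ℝ) - i| ≤ tn := by
    have h1' : (i : ℝ) ≤ c + tn := by exact_mod_cast h1
    have h2' : (c : ℝ) ≤ i + tn := by exact_mod_cast h2
    rw [abs_le]; constructor <;> linarith
  have h5 : C * |(c : ℝ) - i| / K + C / K ≤ 3 * e / K * (((i + hn : ℕ) : ℝ) - i) := by
    have h6 : 3 * e / K * (((i + hn : ℕ) : ℝ) - i) = 3 * e * hn / K := by push_cast; ring
    rw [h6, ← add_div]
    apply div_le_div_of_nonneg_right _ hKr.le
    have h7 : C * |(c : ℝ) - i| ≤ C * tn := mul_le_mul_of_nonneg_left h4 hC0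
    have h8 : 3 * e * (κ * c0 * K / 4 - 1) ≤ 3 * e * hn := by
      apply mul_le_mul_of_nonneg_left _ (by linarith [N.he])
      linarith [N.hn2]
    have h9 : 3 * e * (κ * c0 * K / 4 - 1) = 3 / 4 * (e * κ * c0 * K) - 3 * e := by ring
    linarith [N.tnC, N.X16, N.he4, N.hC]
  linarith

/-- the step with a plank -/
lemma Num.stepP (N : Num C κ e c0 c1 K r1 r2 tn hn i0) (P : Prof C κ c1 K V E M m α g) {i : ℕ}
    (hir1 : r1 ≤ i) (hend : i + r1 ≤ K) (hm : c0 < m i)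
    (hthin : ∀ c, i ≤ c + tn → c ≤ i + tn → α c - (c : ℝ) / K ≤ κ * m c)
    (hα : α i < ((i + r2 : ℕ) : ℝ) / K)
    (hB : ∀ u ≤ r2, |Bal (xof K g) r2 u (i : ZMod K)| ≤ e * r2) :
    V (i + r2) ≤ V i + 3 * (E (i + r2) - E i) + 3 * e / K * (((i + r2 : ℕ) : ℝ) - i) := by
  have hKr : (0 : ℝ) < K := by exact_mod_cast N.hK
  have hsum := N.sum
  have hr2tn := N.r2tn
  have hi2 : i ≤ K := by omega
  have hKα : (i : ℝ) ≤ K * α i := by
    have := P.αge i hi2
    rw [div_le_iff₀ hKr] at this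
    linarith
  obtain ⟨u, hu⟩ : ∃ u : ℕ, u = ⌊K * α i - i⌋₊ := ⟨_, rfl⟩
  have hu1 : (u : ℝ) ≤ K * α i - i := by rw [hu]; exact Nat.floor_le (by linarith)
  have hu2 : K * α i - i < u + 1 := by rw [hu]; exact Nat.lt_floor_add_one _
  have hur2 : u ≤ r2 := by
    have h1 : K * α i < i + r2 := by
      rw [lt_div_iff₀ hKr] at hα
      push_cast at hα
      linarith
    have : (u : ℝ) ≤ r2 := by linarith
    exact_mod_cast this
  have hs : (((i + r2 : ℕ) : ℝ) - i) / K ≤ κ * c1 := by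
    have : ((i + r2 : ℕ) : ℝ) - i = r2 := by push_cast; ring
    rw [this]; exact N.r2κ
  have hu3 : |α i - ((i : ℝ) + u) / K| ≤ 1 / K := by
    rw [abs_le]
    constructor
    · rw [neg_le_sub_iff_le_add, div_le_iff₀ hKr]
      have : (α i + 1 / K) * K = K * α i + 1 := by field_simp
      rw [this]; linarith
    · rw [sub_le_iff_le_add, ← add_div, le_div_iff₀ hKr]
      linarith
  have h1 := P.P i (i + r2) u (by omega) (by omega) (by omega) (by omega) hs
    (fun c hc1' hc2' => ⟨N.c1le.trans (N.mc P hi2 (by omega) (by omega) (by omega) hm),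
      hthin c (by omega) (by omega)⟩) hu3
  have h2 := hB u hur2
  rw [Bal_nat g hur2 (by omega) (by omega)] at h2
  have h3 : 2 * i - (i + r2) = i - r2 := by omega
  rw [h3] at h1
  have h4 : (g (i + r2) - g (i + u)) - (g (i - u) - g (i - r2)) ≤ e * r2 / K := by
    rw [le_div_iff₀ hKr]
    have := (abs_le.1 h2).2
    linarith
  have h5 : C / K ≤ e * r2 / K := div_le_div_of_nonneg_right N.er2 hKr.le
  have h6 : 3 * e / K * (((i + r2 : ℕ) : ℝ) - i) = 3 * (e * r2 / K) := by push_cast; ring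
  rw [h6]
  have h7 : 0 ≤ e * r2 / K := by have := N.he; positivity
  linarith

/-- the step with a fat box of the same level -/
lemma Num.stepA' (N : Num C κ e c0 c1 K r1 r2 tn hn i0) (P : Prof C κ c1 K V E M m α g) {i : ℕ}
    (hir1 : r1 ≤ i) (hend : i + r1 ≤ K) (hα : ((i + r2 : ℕ) : ℝ) / K ≤ α i) :
    V (i + r2) ≤ V i + 3 * (E (i + r2) - E i) + 3 * e / K * (((i + r2 : ℕ) : ℝ) - i) := by
  have hKr : (0 : ℝ) < K := by exact_mod_cast N.hK
  have hsum := N.sum
  have hr2tn := N.r2tn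
  have h1 := P.A i i (i + r2) (by omega) (by omega) (by omega) (by omega) (by omega) hα
  have h2 : C * |(i : ℝ) - i| / K = 0 := by simp
  rw [h2] at h1
  have h3 : C / K ≤ 3 * e / K * (((i + r2 : ℕ) : ℝ) - i) := by
    have h4 : 3 * e / K * (((i + r2 : ℕ) : ℝ) - i) = 3 * (e * r2) / K := by push_cast; ring
    rw [h4]
    apply div_le_div_of_nonneg_right _ hKr.le
    have h5 : 0 ≤ e * r2 := by have := N.he; positivity
    linarith [N.er2]
  linarith

/-- one mesh step -/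
lemma Num.step1 (N : Num C κ e c0 c1 K r1 r2 tn hn i0) (P : Prof C κ c1 K V E M m α g) {i : ℕ}
    (hir1 : r1 ≤ i) (hend : i + r1 ≤ K) :
    V (i + 1) ≤ V i + 3 * (E (i + 1) - E i) + 2 * C / K := by
  have hr1 := N.r1p
  have h0 := P.triv i (i + 1) (by omega) (by omega) (by omega)
  have h1 : C * (((i + 1 : ℕ) : ℝ) - i) / K = C / K := by push_cast; ring_nf
  rw [h1] at h0
  have h2 : 2 * C / K = C / K + C / K := by ring
  rw [h2]; linarith

open Classical in
/-- the bad points -/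
noncomputable def Bset (K : ℕ) (M g : ℕ → ℝ) (e : ℝ) (r1 r2 : ℕ) : Finset ℕ :=
  ((Finset.range K).filter fun i : ℕ => ∃ u ≤ r1, e * r1 < |Bal (xof K M) r1 u (i : ZMod K)|) ∪
    ((Finset.range K).filter fun i : ℕ => ∃ u ≤ r2, e * r2 < |Bal (xof K g) r2 u (i : ZMod K)|)

lemma not_B1 {K : ℕ} {M g : ℕ → ℝ} {e : ℝ} {r1 r2 i : ℕ} (hi : i < K)
    (h : i ∉ Bset K M g e r1 r2) {u : ℕ} (hu : u ≤ r1) :
    |Bal (xof K M) r1 u (i : ZMod K)| ≤ e * r1 := by
  classical
  by_contra hcon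
  push Not at hcon
  exact h (Finset.mem_union_left _ (Finset.mem_filter.2 ⟨Finset.mem_range.2 hi, u, hu, hcon⟩))

lemma not_B2 {K : ℕ} {M g : ℕ → ℝ} {e : ℝ} {r1 r2 i : ℕ} (hi : i < K)
    (h : i ∉ Bset K M g e r1 r2) {u : ℕ} (hu : u ≤ r2) :
    |Bal (xof K g) r2 u (i : ZMod K)| ≤ e * r2 := by
  classical
  by_contra hcon
  push Not at hcon
  exact h (Finset.mem_union_right _ (Finset.mem_filter.2 ⟨Finset.mem_range.2 hi, u, hu, hcon⟩))

lemma Num.exists_step (N : Num C κ e c0 c1 K r1 r2 tn hn i0) (P : Prof C κ c1 K V E M m α g)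
    {i : ℕ} (hi : i0 ≤ i) (hend : i + r1 ≤ K) :
    ∃ j, i < j ∧ j ≤ K ∧ (V j ≤ V i + 3 * (E j - E i) + 3 * e / K * ((j : ℝ) - i) ∨
      (i ∈ Bset K M g e r1 r2 ∧ j = i + 1 ∧ V j ≤ V i + 3 * (E j - E i) + 2 * C / K)) := by
  have hr1p := N.r1p
  have hr2p := N.r2p
  have hsum := N.sum
  have hr2tn := N.r2tn
  have hhn := N.hnpos
  have hir1 : r1 ≤ i := N.r1i0.trans hi
  by_cases hB : i ∈ Bset K M g e r1 r2
  · exact ⟨i + 1, by omega, by omega, Or.inr ⟨hB, rfl, N.step1 P hir1 hend⟩⟩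
  · have hiK : i < K := by omega
    by_cases hm : m i ≤ c0
    · exact ⟨i + r1, by omega, hend, Or.inl (N.stepS P hir1 hend hm (not_B1 hiK hB (Nat.zero_le _)))⟩
    · push Not at hm
      by_cases hfat : ∃ c, i ≤ c + tn ∧ c ≤ i + tn ∧ κ * m c < α c - (c : ℝ) / K
      · obtain ⟨c, h1, h2, h3⟩ := hfat
        exact ⟨i + hn, by omega, by omega, Or.inl (N.stepA P hir1 hend hm h1 h2 h3)⟩
      · push Not at hfat
        by_cases hα : ((i + r2 : ℕ) : ℝ) / K ≤ α i
        · exact ⟨i + r2, by omega, by omega, Or.inl (N.stepA' P hir1 hend hα)⟩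
        · push Not at hα
          exact ⟨i + r2, by omega, by omega, Or.inl
            (N.stepP P hir1 hend hm hfat hα fun u hu => not_B2 hiK hB hu)⟩

lemma Num.path (N : Num C κ e c0 c1 K r1 r2 tn hn i0) (P : Prof C κ c1 K V E M m α g) :
    V K ≤ V i0 + 3 * (E K - E i0) + 3 * e / K * ((K : ℝ) - i0) +
      2 * C / K * (((Bset K M g e r1 r2).filter fun k => i0 ≤ k).card : ℝ) + C * (r1 + 1) / K := by
  have hKr : (0 : ℝ) < K := by exact_mod_cast N.hK
  have he := N.he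
  have hC : 0 < C := by linarith [N.hC]
  refine RV.path (K := K) (V := V) (E := E) (a := 3 * e / K) (b := 2 * C / K)
    (R := C * (r1 + 1) / K) (i0 := i0) (Bset K M g e r1 r2) (by positivity) (by positivity) ?_
    (K - i0) i0 rfl le_rfl N.i0K
  intro i hi1 hi2 hno
  by_cases hend : i + r1 ≤ K
  · exact absurd (N.exists_step P hi1 hend) hno
  · have hr1K := N.r1K
    have h1 := P.triv i K hi2 (by omega) le_rfl
    have h2 : C * ((K : ℝ) - i) / K + C / K ≤ C * (r1 + 1) / K := by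
      rw [← add_div]
      apply div_le_div_of_nonneg_right _ hKr.le
      have h3 : (K : ℝ) ≤ i + r1 := by
        have : K ≤ i + r1 := by omega
        exact_mod_cast this
      nlinarith
    linarith

open Classical in
lemma Bset_card [NeZero K]
    (h1 : ((Finset.univ.filter fun k : ZMod K => ∃ u ≤ r1, e * r1 < |Bal (xof K M) r1 u k|).card : ℝ)
      ≤ e * K)
    (h2 : ((Finset.univ.filter fun k : ZMod K => ∃ u ≤ r2, e * r2 < |Bal (xof K g) r2 u k|).card : ℝ)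
      ≤ e * K) :
    (((Bset K M g e r1 r2).filter fun k => i0 ≤ k).card : ℝ) ≤ 2 * e * K := by
  have a1 := bad_nat (fun z => ∃ u ≤ r1, e * r1 < |Bal (xof K M) r1 u z|) (T := e * K)
    (by convert h1)
  have a2 := bad_nat (fun z => ∃ u ≤ r2, e * r2 < |Bal (xof K g) r2 u z|) (T := e * K)
    (by convert h2)
  have a3 : ((Bset K M g e r1 r2).filter fun k => i0 ≤ k).card ≤ _ :=
    (Finset.card_filter_le _ _).trans (Finset.card_union_le _ _)
  have a4 : (((Bset K M g e r1 r2).filter fun k => i0 ≤ k).card : ℝ) ≤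
      (((Finset.range K).filter fun i : ℕ => ∃ u ≤ r1, e * r1 < |Bal (xof K M) r1 u (i : ZMod K)|).card : ℝ)
      + (((Finset.range K).filter fun i : ℕ => ∃ u ≤ r2, e * r2 < |Bal (xof K g) r2 u (i : ZMod K)|).card : ℝ) := by
    have := a3
    exact_mod_cast this
  have a1' : (((Finset.range K).filter fun i : ℕ =>
      ∃ u ≤ r1, e * r1 < |Bal (xof K M) r1 u (i : ZMod K)|).card : ℝ) ≤ e * K := by convert a1
  have a2' : (((Finset.range K).filter fun i : ℕ =>
      ∃ u ≤ r2, e * r2 < |Bal (xof K g) r2 u (i : ZMod K)|).card : ℝ) ≤ e * K := by convert a2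
  linarith

/-- numbers exist -/
lemma num_of {ρ1 : ℝ} (hC : 1 ≤ C) (hκ : 0 < κ) (hκ1 : κ ≤ 1) (he : 0 < e) (he4 : e ≤ 1 / 4)
    (hρ1 : 0 < ρ1) (hK : 0 < K) (hK1 : 16 * C ≤ e ^ 2 * κ * ρ1 * K) (hr1a : ρ1 * K ≤ r1)
    (hr1b : (r1 : ℝ) ≤ e * K) (hr2a : C ≤ e * r2)
    (hr2b : (r2 : ℝ) ≤ e ^ 2 * κ * ρ1 / (16 * C) * K) :
    ∃ c0 tn hn i0, Num C κ e c0 (e * ρ1 / 2) K r1 r2 tn hn i0 ∧ e * K ≤ (i0 : ℝ) ∧
      (i0 : ℝ) ≤ e * K + 1 := by
  have hC0 : 0 < C := by linarith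
  have hKr : (0 : ℝ) < K := by exact_mod_cast hK
  have heκ : e * κ ≤ 1 := by nlinarith
  have hρ1K' : 16 * C ≤ e * (ρ1 * K) := by
    have h0 : 0 < e * (ρ1 * K) := by positivity
    have h2 : e ^ 2 * κ * ρ1 * K = (e * κ) * (e * (ρ1 * K)) := by ring
    rw [h2] at hK1
    nlinarith
  have her1 : 16 * C ≤ e * r1 := hρ1K'.trans (mul_le_mul_of_nonneg_left hr1a he.le)
  have hr1pos : (0 : ℝ) < r1 := by
    by_contra h
    have : (r1 : ℝ) = 0 := le_antisymm (not_lt.1 h) (Nat.cast_nonneg _)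
    rw [this] at her1
    linarith
  have hr2pos : (0 : ℝ) < r2 := by
    by_contra h
    have : (r2 : ℝ) = 0 := le_antisymm (not_lt.1 h) (Nat.cast_nonneg _)
    rw [this] at hr2a
    linarith
  have hr1p : 0 < r1 := by exact_mod_cast hr1pos
  have hr2p : 0 < r2 := by exact_mod_cast hr2pos
  obtain ⟨c0, hc0⟩ : ∃ c0 : ℝ, c0 = e * r1 / K := ⟨_, rfl⟩
  have hc0K : c0 * K = e * r1 := by rw [hc0]; field_simp
  have hc0pos : 0 < c0 := by rw [hc0]; positivity
  have hc0lo : e * ρ1 ≤ c0 := by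
    rw [hc0, le_div_iff₀ hKr]
    calc e * ρ1 * K = e * (ρ1 * K) := by ring
      _ ≤ e * r1 := mul_le_mul_of_nonneg_left hr1a he.le
  have hX : e ^ 2 * κ * ρ1 * K ≤ e * κ * c0 * K := by
    have : e ^ 2 * κ * ρ1 ≤ e * κ * c0 := by
      calc e ^ 2 * κ * ρ1 = e * κ * (e * ρ1) := by ring
        _ ≤ e * κ * c0 := by gcongr
    gcongr
  have hX16 : 16 * C ≤ e * κ * c0 * K := hK1.trans hX
  have hXpos : 0 < e * κ * c0 * K := by linarith
  have hYpos : 0 < κ * c0 * K := by positivity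
  have hXY : e * κ * c0 * K = e * (κ * c0 * K) := by ring
  obtain ⟨tn, htn⟩ : ∃ tn : ℕ, tn = ⌊e * κ * c0 * K / (8 * C)⌋₊ := ⟨_, rfl⟩
  obtain ⟨hn, hhn⟩ : ∃ hn : ℕ, hn = ⌊κ * c0 * K / 4⌋₊ := ⟨_, rfl⟩
  have htn1 : (tn : ℝ) ≤ e * κ * c0 * K / (8 * C) := by rw [htn]; exact Nat.floor_le (by positivity)
  have htnC : C * tn ≤ e * κ * c0 * K / 8 := by
    calc C * tn ≤ C * (e * κ * c0 * K / (8 * C)) := mul_le_mul_of_nonneg_left htn1 hC0.le
      _ = e * κ * c0 * K / 8 := by field_simp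
  have htn2 : (tn : ℝ) ≤ e * κ * c0 * K / 8 := by
    have : (tn : ℝ) ≤ C * tn := by
      have : (0 : ℝ) ≤ tn := Nat.cast_nonneg _
      nlinarith
    linarith
  have hhn1 : (hn : ℝ) ≤ κ * c0 * K / 4 := by rw [hhn]; exact Nat.floor_le (by positivity)
  have hhn2 : κ * c0 * K / 4 < hn + 1 := by rw [hhn]; exact Nat.lt_floor_add_one _
  have hκc : κ * c0 * K ≤ e * r1 := by
    calc κ * c0 * K = κ * (c0 * K) := by ring
      _ ≤ 1 * (c0 * K) := by gcongr
      _ = e * r1 := by rw [one_mul, hc0K]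
  have heκc : e * κ * c0 * K ≤ κ * c0 * K := by rw [hXY]; nlinarith
  have hr2tn : r2 ≤ tn := by
    rw [htn]
    apply Nat.le_floor
    calc (r2 : ℝ) ≤ e ^ 2 * κ * ρ1 / (16 * C) * K := hr2b
      _ = e ^ 2 * κ * ρ1 * K / (16 * C) := by ring
      _ ≤ e * κ * c0 * K / (16 * C) := by gcongr
      _ ≤ e * κ * c0 * K / (8 * C) := by
          apply div_le_div_of_nonneg_left hXpos.le (by positivity)
          linarith
  have hhn_pos : 0 < hn := by
    have : (0 : ℝ) < hn := by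
      have : 16 * C ≤ κ * c0 * K := hX16.trans heκc
      linarith
    exact_mod_cast this
  have her1le : e * (r1 : ℝ) ≤ 1 / 4 * r1 := mul_le_mul_of_nonneg_right he4 hr1pos.le
  have hsum : hn + 2 * tn ≤ r1 := by
    have : (hn : ℝ) + 2 * tn ≤ r1 := by linarith
    exact_mod_cast this
  obtain ⟨i0, hi0⟩ : ∃ i0 : ℕ, i0 = ⌈e * K⌉₊ := ⟨_, rfl⟩
  have hi0a : e * K ≤ i0 := by rw [hi0]; exact Nat.le_ceil _
  have hi0b : (i0 : ℝ) < e * K + 1 := by rw [hi0]; exact Nat.ceil_lt_add_one (by positivity)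
  have hr1i0 : r1 ≤ i0 := by
    have : (r1 : ℝ) ≤ i0 := hr1b.trans hi0a
    exact_mod_cast this
  have heK : e * (K : ℝ) ≤ 1 / 4 * K := mul_le_mul_of_nonneg_right he4 hKr.le
  have hr1K : 4 * r1 ≤ K := by
    have : (4 : ℝ) * r1 ≤ K := by linarith
    exact_mod_cast this
  have hi0K : i0 ≤ K := by
    have : (i0 : ℝ) ≤ K := by
      have h1 : (4 : ℝ) * r1 ≤ K := by exact_mod_cast hr1K
      have h2 : (1 : ℝ) ≤ r1 := by exact_mod_cast hr1p
      linarith
    exact_mod_cast this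
  refine ⟨c0, tn, hn, i0, ⟨hC, hκ, he, he4, heκ, hK, hc0K, hc0pos, her1, hr2a, hX16, htnC, hhn1,
    hhn2, hr2tn, hhn_pos, hsum, hr1i0, hr1K, hi0K, hr1p, hr2p, by linarith, ?_⟩, hi0a, hi0b.le⟩
  rw [div_le_iff₀ hKr]
  refine hr2b.trans ?_
  apply mul_le_mul_of_nonneg_right _ hKr.le
  rw [div_le_iff₀ (by positivity)]
  have h4 : κ * (e * ρ1 / 2) * (16 * C) = (e * κ * ρ1) * (8 * C) := by ring
  have h5 : e ^ 2 * κ * ρ1 = (e * κ * ρ1) * e := by ring
  rw [h4, h5]
  apply mul_le_mul_of_nonneg_left _ (by positivity)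
  linarith

/-- the final estimate -/
lemma Num.final (N : Num C κ e c0 c1 K r1 r2 tn hn i0) (P : Prof C κ c1 K V E M m α g) {e0 : ℝ}
    (hee0 : 20 * C * e ≤ e0) (hc3 : 12 * C ≤ e0 * K) (hr1b : (r1 : ℝ) ≤ e * K)
    (hi0b : (i0 : ℝ) ≤ e * K + 1)
    (hcard : (((Bset K M g e r1 r2).filter fun k => i0 ≤ k).card : ℝ) ≤ 2 * e * K) :
    V K ≤ V 0 + 3 * E K + e0 := by
  have hKr : (0 : ℝ) < K := by exact_mod_cast N.hK
  have he := N.he
  have hC := N.hC
  have hC0 : 0 < C := by linarith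
  have hpath := N.path P
  have hinit := P.init i0 N.i0K
  have e1 : 3 * e / K * ((K : ℝ) - i0) ≤ 3 * e := by
    rw [div_mul_eq_mul_div, div_le_iff₀ hKr]
    have : (0 : ℝ) ≤ i0 := Nat.cast_nonneg _
    nlinarith
  have e2 : 2 * C / K * (((Bset K M g e r1 r2).filter fun k => i0 ≤ k).card : ℝ) ≤ 4 * C * e := by
    rw [div_mul_eq_mul_div, div_le_iff₀ hKr]
    calc 2 * C * (((Bset K M g e r1 r2).filter fun k => i0 ≤ k).card : ℝ) ≤ 2 * C * (2 * e * K) := by
          gcongr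
      _ = 4 * C * e * K := by ring
  have e3 : C * ((r1 : ℝ) + 1) / K ≤ C * e + C / K := by
    rw [div_le_iff₀ hKr]
    have : (C * e + C / K) * K = C * (e * K) + C := by field_simp
    rw [this]
    nlinarith
  have e4 : C * (i0 : ℝ) / K ≤ C * e + C / K := by
    rw [div_le_iff₀ hKr]
    have : (C * e + C / K) * K = C * (e * K) + C := by field_simp
    rw [this]
    nlinarith
  have e5 : C / K ≤ e0 / 12 := by
    rw [div_le_iff₀ hKr]; linarith
  have e6 : e ≤ C * e := by nlinarith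
  linarith

end steps

/-- **[RV]** -/
theorem stRV : StRV := by
  intro C κ e0 hC hκ hκ1 he0
  have hC0 : 0 < C := by linarith
  obtain ⟨e, he_def⟩ : ∃ e : ℝ, e = min (e0 / (20 * C)) (1 / 4) := ⟨_, rfl⟩
  have he : 0 < e := by rw [he_def]; positivity
  have he4 : e ≤ 1 / 4 := by rw [he_def]; exact min_le_right _ _
  have hee0 : 20 * C * e ≤ e0 := by
    have : e ≤ e0 / (20 * C) := by rw [he_def]; exact min_le_left _ _
    rw [le_div_iff₀ (by positivity)] at this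
    linarith
  obtain ⟨ρ1, hρ1, QM⟩ := QH e e he he
  have hr0pos : 0 < e ^ 2 * κ * ρ1 / (16 * C) := by positivity
  obtain ⟨ρ2, hρ2, Qg⟩ := QH e _ he hr0pos
  have hDpos : 0 < e ^ 2 * κ * ρ1 := by positivity
  obtain ⟨K1, hK1⟩ := exists_nat_ge (16 * C / (e ^ 2 * κ * ρ1))
  obtain ⟨K2, hK2⟩ := exists_nat_ge (C / (e * ρ2))
  obtain ⟨K3, hK3⟩ := exists_nat_ge (12 * C / e0)
  refine ⟨e * ρ1 / 2, K1 + K2 + K3 + 1, by positivity, by omega, ?_⟩
  intro K hK V E M m α g P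
  have hK0 : 0 < K := by omega
  have hKr : (0 : ℝ) < K := by exact_mod_cast hK0
  have hKne : NeZero K := ⟨hK0.ne'⟩
  have hc1 : 16 * C ≤ e ^ 2 * κ * ρ1 * K := by
    have h1 : 16 * C / (e ^ 2 * κ * ρ1) ≤ K := hK1.trans (by exact_mod_cast (by omega : K1 ≤ K))
    rw [div_le_iff₀ hDpos] at h1
    linarith
  have hc2 : C ≤ e * (ρ2 * K) := by
    have h1 : C / (e * ρ2) ≤ K := hK2.trans (by exact_mod_cast (by omega : K2 ≤ K))
    rw [div_le_iff₀ (by positivity)] at h1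
    linarith
  have hc3 : 12 * C ≤ e0 * K := by
    have h1 : 12 * C / e0 ≤ K := hK3.trans (by exact_mod_cast (by omega : K3 ≤ K))
    rw [div_le_iff₀ he0] at h1
    linarith
  have hρ2K : 1 ≤ ρ2 * K := by
    have h0 : 0 < ρ2 * K := by positivity
    nlinarith
  have hρ1K : 1 ≤ ρ1 * K := by
    have h0 : 0 < ρ1 * K := by positivity
    have h2 : e ^ 2 * κ * ρ1 * K = (e ^ 2 * κ) * (ρ1 * K) := by ring
    have h3 : e ^ 2 * κ ≤ 1 := by nlinarith [sq_nonneg e]
    rw [h2] at hc1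
    nlinarith
  obtain ⟨r1, hr1a, hr1b, hr1c⟩ := QM K hρ1K (xof K M)
    (fun k => (xof_bounds hK0 P.Mmono P.MLip k).1) (fun k => (xof_bounds hK0 P.Mmono P.MLip k).2)
  obtain ⟨r2, hr2a, hr2b, hr2c⟩ := Qg K hρ2K (xof K g)
    (fun k => (xof_bounds hK0 P.gmono P.gLip k).1) (fun k => (xof_bounds hK0 P.gmono P.gLip k).2)
  have her2 : C ≤ e * r2 := hc2.trans (mul_le_mul_of_nonneg_left hr2a he.le)
  obtain ⟨c0, tn, hn, i0, N, hi0a, hi0b⟩ := num_of hC hκ hκ1 he he4 hρ1 hK0 hc1 hr1a hr1b her2 hr2b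
  exact N.final P hee0 hc3 hr1b hi0b (Bset_card hr1c hr2c)

end Vale.Agent.P122.RV
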