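import Vale.Agent.P122.H610.Cnts
import Vale.Agent.P122.H563.Fin
import Vale.Agent.P122.H286.En
import Vale.Agent.P122.H616.R0

/-! # P122 / H11 : glue lemmas for the composition RG1 (helper11)

* `D_le_of_Cnt`, `D_ge_of_Unf` : the number of reached nodes of a level from `Cnt`, `Unf`.
* `not_dens` : the density of the reached nodes is not smaller than the limit of `lmx`. -/

set_option autoImplicit false

namespace Vale.Agent.P122.H11

open Filter Topology Finset Vale.Agent.P127 Vale.Agent.P127.Stk Vale.Agent.P127.U Vale.Agent.P127.U.Sys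
  Vale.Agent.P122.C2 Vale.Agent.P122.E Vale.Agent.P122.H610

variable {K : ℕ} {Z : CS K} (W : VS Z)

/-- every reached node is the node of an outcome -/
theorem exists_om {c : ℕ} (hc : c ≤ K) (i : ℕ) {S : Nd} (hS : S ∈ (W.V i).D (Z.F i).s (Z.n i) c) :
    ∃ ω : W.sys.Ω i, W.flg.N c i ω = S := by
  have h := wt_pos (W.ok i) hc hS
  unfold wt at h
  rw [card_pos] at h
  obtain ⟨f, hf⟩ := h
  rw [mem_filter] at hf
  exact ⟨⟨f, hf.1⟩, hf.2⟩

theorem N_mem {c : ℕ} (hc : c ≤ K) (i : ℕ) (ω : W.sys.Ω i) : W.flg.N c i ω ∈ (W.V i).D (Z.F i).s (Z.n i) c :=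
  nd_D (W.ok i) hc ω.2

theorem L_eq (i : ℕ) : ((W.sys.L i : ℕ) : ℝ) = Z.L i := rfl

/-- the number of reached nodes is at most the number of values -/
theorem D_le_of_Cnt {c : ℕ} (hc : c ≤ K) {r : ℝ} (h : Cnt W.flg.S (W.flg.N c) (one (S := W.flg.S)) r) :
    ∀ ε : ℝ, 0 < ε → ∀ᶠ i in (uf : Filter ℕ),
      (((W.V i).D (Z.F i).s (Z.n i) c).card : ℝ) ≤ (2 : ℝ) ^ ((r + ε) * Z.L i) := by
  intro ε hε
  filter_upwards [h ε hε] with i hi
  obtain ⟨f, hf⟩ := W.fl_ne i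
  obtain ⟨U, hU, hU'⟩ := hi ⟨f, hf⟩ (W.sys_pos i _)
  refine le_trans ?_ hU
  have : (W.V i).D (Z.F i).s (Z.n i) c ⊆ U := by
    intro S hS
    obtain ⟨ω, hω⟩ := exists_om W hc i hS
    have := hU' ω (W.sys_pos i ω) rfl
    rwa [hω] at this
  exact_mod_cast card_le_card this

/-- the number of reached nodes is at least `2 ^ r` -/
theorem D_ge_of_Unf {c : ℕ} (hc : c ≤ K) {r : ℝ} (h : Unf W.flg.S (W.flg.N c) r) :
    ∀ ε : ℝ, 0 < ε → ∀ᶠ i in (uf : Filter ℕ),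
      (2 : ℝ) ^ ((r - ε) * Z.L i) ≤ (((W.V i).D (Z.F i).s (Z.n i) c).card : ℝ) := by
  intro ε hε
  filter_upwards [h ε hε] with i hi
  set D := (W.V i).D (Z.F i).s (Z.n i) c with hD
  have hfl : (0 : ℝ) < (W.fl i).card := by exact_mod_cast (W.fl_ne i).card_pos
  have h1 : ∀ S ∈ D, ((wt (W.V i) (Z.F i).s (Z.n i) K c S : ℕ) : ℝ) ≤
      (W.fl i).card * (2 : ℝ) ^ ((-r + ε) * Z.L i) := by
    intro S hS
    obtain ⟨ω, hω⟩ := exists_om W hc i hS
    have h2 := hi ω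
    have h3 : (W.flg.S.P i).pr (W.flg.N c i) (W.flg.N c i ω) =
        (((W.fl i).filter fun f => nd (Z.F i).s (Z.n i) K c f = S).card : ℝ) / (W.fl i).card := by
      rw [hω]
      refine Eq.trans (uL_pr' (W.fl_ne i) (fun f => nd (Z.F i).s (Z.n i) K c f) S) ?_
      congr!
    rw [h3, div_le_iff₀ hfl, mul_comm] at h2
    exact h2
  have h4 : ((W.fl i).card : ℝ) ≤ D.card * ((W.fl i).card * (2 : ℝ) ^ ((-r + ε) * Z.L i)) := by
    have h5 : ((W.fl i).card : ℝ) = ∑ S ∈ D, ((wt (W.V i) (Z.F i).s (Z.n i) K c S : ℕ) : ℝ) := by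
      have h6 : (W.fl i).card = ∑ S ∈ D, wt (W.V i) (Z.F i).s (Z.n i) K c S := by
        unfold wt
        exact card_eq_sum_card_fiberwise fun f hf => nd_D (W.ok i) hc hf
      rw [h6]
      push_cast
      rfl
    calc ((W.fl i).card : ℝ) = _ := h5
      _ ≤ ∑ S ∈ D, ((W.fl i).card * (2 : ℝ) ^ ((-r + ε) * Z.L i)) := sum_le_sum h1
      _ = _ := by rw [sum_const, nsmul_eq_mul]
  have h7 : (1 : ℝ) ≤ D.card * (2 : ℝ) ^ ((-r + ε) * Z.L i) := by
    have h8 : ((W.fl i).card : ℝ) * 1 ≤ (W.fl i).card * (D.card * (2 : ℝ) ^ ((-r + ε) * Z.L i)) := by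
      rw [mul_one]
      calc ((W.fl i).card : ℝ) ≤ _ := h4
        _ = _ := by ring
    exact le_of_mul_le_mul_left h8 hfl
  have h9 : (2 : ℝ) ^ ((-r + ε) * Z.L i) = ((2 : ℝ) ^ ((r - ε) * Z.L i))⁻¹ := by
    rw [← Real.rpow_neg (by norm_num)]
    congr 1
    ring
  rw [h9, ← div_eq_mul_inv, le_div_iff₀ (by positivity), one_mul] at h7
  exact h7

/-- the density of the reached nodes of level `c` -/
theorem not_dens {c : ℕ} (hc : c ≤ K) (hub : UB fun i => H286.lmx (Z.F i).s (Z.n i) c ((W.V i).D (Z.F i).s (Z.n i) c) / Z.L i) :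
    ∀ ε : ℝ, 0 < ε → ∀ᶠ i in (uf : Filter ℕ),
      ¬ Dens (Z.F i).s (Z.n i) c ((W.V i).D (Z.F i).s (Z.n i) c : Set Nd)
        ((2 : ℝ) ^ (((ulim fun i => H286.lmx (Z.F i).s (Z.n i) c ((W.V i).D (Z.F i).s (Z.n i) c) / Z.L i) - ε) * Z.L i)) := by
  intro ε hε
  have h1 := lt_ulim_eventually hub (c := (ulim fun i => H286.lmx (Z.F i).s (Z.n i) c
    ((W.V i).D (Z.F i).s (Z.n i) c) / Z.L i) - ε) (by linarith)
  filter_upwards [h1, Z.L_pos] with i h2 h3 hcon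
  have hne := H616.D_nonempty (W.ok i) (W.ne i) c hc
  have h4 := H286.mx_le_of_dens (D := (W.V i).D (Z.F i).s (Z.n i) c) (fun S hS => hS) hcon
  rw [← H286.lmx_le_iff _ _ _ hne] at h4
  rw [lt_div_iff₀ h3] at h2
  linarith

end Vale.Agent.P122.H11
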