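import Vale.Agent.P122.E.RG
import Vale.Agent.P122.H286.RGbox2
import Vale.Agent.P122.H11.Glue

/-! # P122 / H11 : RG1, composition to `RegA` (helper11)

* `PUni` (RGuni), `PLaw` (RGlaw) : the inputs.
* `rg1_of : RGmin → PUni → PLaw → RG1`. -/

set_option autoImplicit false

namespace Vale.Agent.P122.H11

open Filter Topology Finset Vale.Agent.P127 Vale.Agent.P127.Stk Vale.Agent.P127.U Vale.Agent.P127.U.Sys
  Vale.Agent.P122.C2 Vale.Agent.P122.E Vale.Agent.P122.H610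

/-- RGuni -/
def PUni : Prop := ∀ {K : ℕ} {Z : CS K} (W : VS Z), W.Stable → ∃ W' : VS Z, W'.Le W ∧ ∃ H : ℕ → ℝ,
  ∀ c, c ≤ K → Unf W'.sys (W'.flg.N c) (H c) ∧ Cnt W'.sys (W'.flg.N c) (one (S := W'.sys)) (H c)

/-- RGlaw: the counts of the uniform law of the flags -/
def PLaw : Prop := ∀ {K : ℕ} {Z : CS K} (W : VS Z),
  (∀ c, c < K → Cnt W.sys (W.flg.Y (c + 1)) (W.flg.N c) (W.Jn c)) ∧
  Unf W.sys (Sys.pr W.flg.x (W.flg.Y K)) (Z.lg (fun i => Real.logb 2 ((W.V i).X.card : ℝ)) + ∑ c ∈ range K, W.Jn c) ∧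
  (∀ c, c < K → 2 * thn W c ≤ W.Jn c) ∧
  ∀ c, c < K → Cnt W.sys (W.flg.N c) (W.flg.sg c) (2 / K - 2 * thn W c)

variable {K : ℕ} {Z : CS K}

/-- the number of starting nodes -/
theorem lg_X (W : VS Z) {r : ℝ} (h1 : Unf W.flg.S (W.flg.N 0) r) (h2 : Cnt W.flg.S (W.flg.N 0) (one (S := W.flg.S)) r) :
    Z.lg (fun i => Real.logb 2 ((W.V i).X.card : ℝ)) = r := by
  have hb : ∀ i, (0 : ℝ) < (W.V i).X.card := fun i => by exact_mod_cast (W.ne i).card_pos
  have hup := D_le_of_Cnt W (Nat.zero_le _) h2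
  have hOL : Z.OL fun i => Real.logb 2 ((W.V i).X.card : ℝ) := by
    refine CS.OL.of_le (c := r + 1) (Eventually.of_forall fun i => ?_) ?_
    · have h3 : (1 : ℝ) ≤ (W.V i).X.card := by exact_mod_cast (W.ne i).card_pos
      exact Real.logb_nonneg (by norm_num) h3
    · filter_upwards [hup 1 one_pos] with i hi
      rw [Real.logb_le_iff_le_rpow (by norm_num) (hb i)]
      exact hi
  refine le_antisymm (CS.le_of_ev hOL fun ε hε => ?_) (CS.ge_of_ev hOL fun ε hε => ?_)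
  · filter_upwards [hup ε hε] with i hi
    rw [Real.logb_le_iff_le_rpow (by norm_num) (hb i)]
    exact hi
  · filter_upwards [D_ge_of_Unf W (Nat.zero_le _) h1 ε hε] with i hi
    rw [Real.le_logb_iff_rpow_le (by norm_num) (hb i)]
    exact hi

/-- **RG1** from its parts -/
theorem rg1_of (hmin : RGmin) (huni : PUni) (hlaw : PLaw) : RG1 := by
  intro K Z W0
  obtain ⟨W1, l1, s1⟩ := hmin Z W0
  obtain ⟨W2, l2, H, hH⟩ := huni W1 s1
  have s2 : W2.Stable := s1.le l2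
  obtain ⟨W3, l3, inc, B, kk, jj, hB⟩ := H286.RGbox W2 s2 H fun c hc => (hH c hc).2
  have s3 : W3.Stable := s2.le l3
  obtain ⟨hJ, hen⟩ := s2 W3 l3
  have hd := VS.dns hJ l3 inc
  have hNu : ∀ c, c ≤ K → Unf W3.flg.S (W3.flg.N c) (H c) := fun c hc => (hH c hc).1.res (VS.dns hJ l3 inc)
  have hN1 : ∀ c, c ≤ K → Cnt W3.flg.S (W3.flg.N c) (one (S := W3.flg.S)) (H c) := fun c hc =>
    (hH c hc).2.res (VS.dns hJ l3 inc)
  have hX := lg_X W3 (hNu 0 (Nat.zero_le _)) (hN1 0 (Nat.zero_le _))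
  obtain ⟨a1, a2, a3, a4⟩ := hlaw W3
  rw [hX] at a2
  refine ⟨W3, l3.trans (l2.trans l1), s3, H, B, kk, jj, ?_⟩
  exact
    { J0 := fun c hc => W3.Jn_nonneg hc
      e0 := fun c _ => Real.sInf_nonneg fun x hx => hx.1
      kid := a1
      x1 := hN1 0 (Nat.zero_le _)
      flag := a2
      Nu := hNu
      N1 := hN1
      L := a3
      B1 := a4
      exU := fun c hc => by rw [hen c hc]; exact hB.exU c hc
      Wok := hB.Wok
      Wfn := hB.Wfn
      W1 := fun c hc => by rw [hen c hc]; exact hB.W1 c hc }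

end Vale.Agent.P122.H11
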