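import Vale.Agent.P122.H11.RG1
import Vale.Agent.P122.H616.RGmin
import Vale.Agent.P122.H563.Uni

/-! # P122 / H11 : RG1 from RGlaw (helper11) -/

set_option autoImplicit false

namespace Vale.Agent.P122.H11

open Filter Topology Finset Vale.Agent.P127 Vale.Agent.P127.Stk Vale.Agent.P127.U Vale.Agent.P127.U.Sys
  Vale.Agent.P122.C2 Vale.Agent.P122.E Vale.Agent.P122.H610

theorem puni : PUni := by
  intro K Z W hS
  obtain ⟨W', h1, -, H, -, h2⟩ := H563.uni W fun W' h => (hS W' h).1
  exact ⟨W', h1, H, fun c hc => (h2 c hc).2⟩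

/-- **RG1** from RGlaw -/
theorem rg1_of_law (hlaw : PLaw) : RG1 := rg1_of H616.rgmin puni hlaw

end Vale.Agent.P122.H11
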