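import Vale.Agent.P122.H11.Glue
import Vale.Agent.P122.C.Bridge

/-! # P122 / H11 : the excess of a sequence of valid structures is `O(L)` (helper11)

* `OL_card_Fg`, `OL_lmx` : the logarithms of the number of flags and of the density of the reached nodes are `O(L)`. -/

set_option autoImplicit false

namespace Vale.Agent.P122.H11

open Filter Topology Finset Vale.Agent.P127 Vale.Agent.P127.Stk Vale.Agent.P127.U Vale.Agent.P127.U.Sys
  Vale.Agent.P122.C2 Vale.Agent.P122.E Vale.Agent.P122.H610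

variable {K : ℕ} {Z : CS K}

/-! ### the number of reached nodes and the excess are `2^(O(L))` -/

theorem card_D_le_Fg (W : VS Z) {c : ℕ} (hc : c ≤ K) (i : ℕ) :
    ((W.V i).D (Z.F i).s (Z.n i) c).card ≤ (W.fl i).card := by
  have h := card_mul_le_of_wt (V := W.V i) (s := (Z.F i).s) (n := Z.n i) (K := K) (c := c)
    (U := (W.V i).D (Z.F i).s (Z.n i) c) (b := 1) fun S hS => wt_pos (W.ok i) hc hS
  rw [mul_one] at h
  exact h

theorem OL_card_Fg (W : VS Z) : Z.OL fun i => Real.logb 2 ((W.fl i).card : ℝ) := by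
  set M : ℝ := (2 * (Z.C + 3 * K) + 1) ^ 2 with hM
  have hC := Z.C1
  have hM1 : 1 ≤ M := by
    rw [hM]
    have : (0 : ℝ) ≤ K := Nat.cast_nonneg _
    nlinarith
  refine CS.OL.of_le (c := 9) (Eventually.of_forall fun i => ?_) ?_
  · have h1 : (1 : ℝ) ≤ (W.fl i).card := by exact_mod_cast (W.fl_ne i).card_pos
    exact Real.logb_nonneg (by norm_num) h1
  · filter_upwards [CS.const_le (Z := Z) (Real.logb 2 M) one_pos] with i hi
    have h1 : (0 : ℝ) < (W.fl i).card := by exact_mod_cast (W.fl_ne i).card_pos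
    have h2 : ((W.fl i).card : ℝ) ≤ M * 2 ^ (8 * K * Z.n i) := (W.ok i).card_Fg_bd (by linarith)
    have h3 := Real.logb_le_logb_of_le (by norm_num : (1 : ℝ) < 2) h1 h2
    have h4 : Real.logb 2 ((2 : ℝ) ^ (8 * K * Z.n i)) = 8 * Z.L i := by
      rw [← Real.rpow_natCast, Real.logb_rpow (by norm_num) (by norm_num), Z.L_eq]
      push_cast
      ring
    rw [Real.logb_mul (by positivity) (by positivity), h4] at h3
    linarith

theorem D_ne (W : VS Z) {c : ℕ} (hc : c ≤ K) (i : ℕ) : ((W.V i).D (Z.F i).s (Z.n i) c).Nonempty :=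
  H616.D_nonempty (W.ok i) (W.ne i) c hc

theorem OL_lmx (W : VS Z) {c : ℕ} (hc : c ≤ K) :
    Z.OL fun i => H286.lmx (Z.F i).s (Z.n i) c ((W.V i).D (Z.F i).s (Z.n i) c) := by
  obtain ⟨B, hB⟩ := OL_card_Fg W
  refine CS.OL.of_le (c := B) (Eventually.of_forall fun i => H286.lmx_nonneg _ _ _ (D_ne W hc i)) ?_
  filter_upwards [hB, Z.L_pos] with i h1 h2
  have h3 := (abs_le.1 h1).2
  rw [div_le_iff₀ h2] at h3
  refine le_trans ?_ h3
  refine (H286.lmx_le_card _ _ _ (D_ne W hc i)).trans ?_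
  refine Real.logb_le_logb_of_le (by norm_num) ?_ ?_
  · exact_mod_cast (D_ne W hc i).card_pos
  · exact_mod_cast card_D_le_Fg W hc i

end Vale.Agent.P122.H11
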