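import Vale.Agent.P122.H11.LawLB
import Vale.Agent.P122.H11.RG1b
import Vale.Agent.P122.H11.Viol

/-! # P122 / H11 : RGlaw and RG1 (helper11) -/

set_option autoImplicit false

namespace Vale.Agent.P122.H11

open Filter Topology Finset Vale.Agent.P127 Vale.Agent.P127.Stk Vale.Agent.P127.U Vale.Agent.P127.U.Sys
  Vale.Agent.P122.C2 Vale.Agent.P122.E Vale.Agent.P122.H610

/-- the number of starting nodes is `2^(O(L))` -/
theorem OL_X {K : ℕ} {Z : CS K} (W : VS Z) : Z.OL fun i => Real.logb 2 ((W.V i).X.card : ℝ) := by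
  obtain ⟨B, hB⟩ := OL_card_Fg W
  refine CS.OL.of_le (c := B) (Eventually.of_forall fun i => ?_) ?_
  · have h3 : (1 : ℝ) ≤ (W.V i).X.card := by exact_mod_cast (W.ne i).card_pos
    exact Real.logb_nonneg (by norm_num) h3
  · filter_upwards [hB, Z.L_pos] with i h1 h2
    have h3 := (abs_le.1 h1).2
    rw [div_le_iff₀ h2] at h3
    refine le_trans ?_ h3
    refine Real.logb_le_logb_of_le (by norm_num) (by exact_mod_cast (W.ne i).card_pos) ?_
    exact_mod_cast card_D_le_Fg W (c := 0) (Nat.zero_le _) i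

/-- **RGlaw** -/
theorem plaw : PLaw := fun W => ⟨fun _ hc => law_kid W hc, law_flag W (OL_X W), fun _ hc => law_L W hc, fun _ hc => law_B1 W hc⟩

/-- **RG1** -/
theorem rg1 : RG1 := rg1_of_law plaw

end Vale.Agent.P122.H11
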