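import Vale.Agent.P122.E.RGC

/-! # P122 / H11 : RGlaw, the parts `L` and `B1` (helper11) -/

set_option autoImplicit false

namespace Vale.Agent.P122.H11

open Filter Topology Finset Vale.Agent.P127 Vale.Agent.P127.Stk Vale.Agent.P127.U Vale.Agent.P127.U.Sys
  Vale.Agent.P122.C2 Vale.Agent.P122.E Vale.Agent.P122.H610

variable {K : ℕ} {Z : CS K}

/-- `log2 (a c / a (c+1)) ≤ J + o(L)` -/
theorem log_amp_le (W : VS Z) {c : ℕ} (hc : c < K) (ε : ℝ) (hε : 0 < ε) : ∀ᶠ i in (uf : Filter ℕ),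
    Real.logb 2 (W.a i c / W.a i (c + 1)) ≤ (W.J i c : ℝ) + ε * Z.L i := by
  filter_upwards [W.ρbig.neg_log_le (half_pos hε), CS.const_le (Z := Z) (Real.logb 2 (4 * Z.C)) (half_pos hε)] with i h1 h2
  have hC : 0 < Z.C := lt_of_lt_of_le one_pos Z.C1
  obtain ⟨S, hS⟩ : ((W.V i).D (Z.F i).s (Z.n i) c).Nonempty := by
    obtain ⟨f, hf⟩ := W.fl_ne i
    exact ⟨_, nd_D (W.ok i) hc.le hf⟩
  have h4 := (W.ok i).L (W.ρpos i) hC.le hc hS
  have a0 := (W.ok i).apos c hc.le
  have a1 := (W.ok i).apos (c + 1) (by omega)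
  have h6 : W.a i c / W.a i (c + 1) ≤ 4 * Z.C * 2 ^ (W.J i c) / W.ρ i := by
    rw [div_le_div_iff₀ a1 (W.ρpos i)]
    linarith
  have h7 := Real.logb_le_logb_of_le (by norm_num : (1:ℝ) < 2) (by positivity) h6
  rw [Real.logb_div (by positivity) (W.ρpos i).ne', Real.logb_mul (by positivity) (by positivity),
    ← Real.rpow_natCast, Real.logb_rpow (by norm_num) (by norm_num)] at h7
  linarith

/-- **L** -/
theorem law_L (W : VS Z) {c : ℕ} (hc : c < K) : 2 * thn W c ≤ W.Jn c := by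
  have h : thn W c ≤ W.Jn c / 2 := by
    refine CS.le_of_ev (thn_OL W hc) fun ε hε => ?_
    filter_upwards [log_amp_le W hc (ε / 2) (half_pos hε), CS.le_lg (W.J_OL hc) hε, Z.L_pos] with i h1 h2 h3
    have hJ : (0 : ℝ) ≤ W.J i c := Nat.cast_nonneg _
    have e : Z.lg (fun i => (W.J i c : ℝ)) = W.Jn c := rfl
    rw [e] at h2
    refine max_le ?_ ?_
    · nlinarith
    · nlinarith
  linarith

/-- at most `2 ^ (2 n)` nodes with the same piece -/
theorem card_sg_le {n : ℕ} (U : Finset Nd) (σ : Nd) (h : ∀ S ∈ U, S.sg n = σ) : U.card ≤ 2 ^ (2 * n) := by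
  classical
  have h1 : U.card ≤ (Fintype.piFinset fun k : Fin 2 => Finset.Ico (2 ^ n * σ.o k) (2 ^ n * (σ.o k + 1))).card := by
    refine card_le_card_of_injOn (fun S => S.o) ?_ ?_
    · intro S hS
      have h2 := h S hS
      rw [Finset.mem_coe, Fintype.mem_piFinset]
      intro k
      have h3 : S.o k / 2 ^ n = σ.o k := by rw [← h2]; rfl
      have hp : (0 : ℤ) < 2 ^ n := by positivity
      rw [Finset.mem_Ico, ← h3]
      constructor
      · exact Int.mul_ediv_self_le hp.ne'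
      · have := Int.lt_mul_ediv_self_add (x := S.o k) hp
        linarith
    · intro S hS S' hS' e
      have h2 := h S hS
      have h3 := h S' hS'
      have h4 : S.sg n = S'.sg n := h2.trans h3.symm
      have h5 : (S.sg n).τ = (S'.sg n).τ := congrArg Nd.τ h4
      have h6 : (S.sg n).T = (S'.sg n).T := congrArg Nd.T h4
      exact Nd.ext h5 e h6
  refine h1.trans (le_of_eq ?_)
  rw [Fintype.card_piFinset]
  have h7 : ∀ k, (Finset.Ico ((2 : ℤ) ^ n * σ.o k) (2 ^ n * (σ.o k + 1))).card = 2 ^ n := by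
    intro k
    rw [Int.card_Ico]
    have : (2 ^ n * (σ.o k + 1) - 2 ^ n * σ.o k : ℤ) = ((2 ^ n : ℕ) : ℤ) := by push_cast; ring
    rw [this, Int.toNat_natCast]
  simp only [h7, Fin.prod_univ_two]
  rw [two_mul, pow_add]

/-- **B1** -/
theorem law_B1 (W : VS Z) {c : ℕ} (hc : c < K) : Cnt W.sys (W.flg.N c) (W.flg.sg c) (2 / K - 2 * thn W c) := by
  classical
  intro ε hε
  have hK0 : (0 : ℝ) < K := by exact_mod_cast lt_of_lt_of_le Nat.zero_lt_one Z.K1
  have hC : 0 < Z.C := lt_of_lt_of_le one_pos Z.C1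
  filter_upwards [W.ρbig.neg_log_le (show 0 < ε / 8 by positivity),
    CS.const_le (Z := Z) (Real.logb 2 (8 * Z.C)) (show 0 < ε / 8 by positivity),
    CS.lg_le (thn_OL W hc) (show 0 < ε / 8 by positivity), Z.L_pos] with i h1 h2 h3 h3' ω _
  have e0 : Z.lg (fun i => max 0 (Real.logb 2 (W.a i c / W.a i (c + 1)) - (W.J i c : ℝ) / 2)) = thn W c := rfl
  rw [e0] at h3
  set σ := W.flg.sg c i ω with hσ
  set U := ((W.V i).D (Z.F i).s (Z.n i) c).filter fun S => S.sg (Z.n i) = σ with hU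
  have hUσ : ∀ S ∈ U, S.sg (Z.n i) = σ := fun S hS => (mem_filter.1 hS).2
  have hmem : ∀ ω', W.flg.sg c i ω' = σ → W.flg.N c i ω' ∈ U := fun ω' e =>
    mem_filter.2 ⟨nd_D (W.ok i) hc.le ω'.2, e⟩
  have hL2 : 2 / (K : ℝ) * Z.L i = 2 * Z.n i := by
    rw [Z.L_eq]
    field_simp
  refine ⟨U, ?_, fun ω' _ e => hmem ω' e⟩
  have hUne : (0 : ℝ) < U.card := by exact_mod_cast card_pos.2 ⟨_, hmem ω rfl⟩
  have eL : ((W.sys.L i : ℕ) : ℝ) = Z.L i := rfl
  rw [eL, ← Real.logb_le_iff_le_rpow (by norm_num) hUne]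
  have a0 := (W.ok i).apos c hc.le
  have a1 := (W.ok i).apos (c + 1) (by omega)
  -- trivial bound
  have t1 : Real.logb 2 U.card ≤ 2 * Z.n i := by
    have h4 : (U.card : ℝ) ≤ 2 ^ (2 * Z.n i) := by exact_mod_cast card_sg_le U σ hUσ
    have h5 := Real.logb_le_logb_of_le (by norm_num : (1:ℝ) < 2) hUne h4
    rw [← Real.rpow_natCast, Real.logb_rpow (by norm_num) (by norm_num)] at h5
    push_cast at h5
    exact h5
  -- `B1`
  have t2 : Real.logb 2 U.card ≤ 2 * Z.n i - 2 * (Real.logb 2 (W.a i c / W.a i (c + 1)) - (W.J i c : ℝ) / 2) +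
      Real.logb 2 (8 * Z.C) - 2 * Real.logb 2 (W.ρ i) := by
    have h4 := (W.ok i).B1 (W.ρpos i) hC.le hc σ U (filter_subset _ _) hUσ
    have h5 : (U.card : ℝ) * W.ρ i ^ 2 * (W.a i c / W.a i (c + 1)) ^ 2 ≤ 8 * Z.C * 2 ^ (2 * Z.n i + W.J i c) := by
      rw [div_pow, mul_div_assoc', div_le_iff₀ (by positivity)]
      calc (U.card : ℝ) * W.ρ i ^ 2 * W.a i c ^ 2 = U.card * (W.ρ i * W.a i c) ^ 2 := by ring
        _ ≤ _ := h4
    have h6 := Real.logb_le_logb_of_le (by norm_num : (1:ℝ) < 2) (by have := W.ρpos i; positivity) h5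
    have hρ := W.ρpos i
    have hq : 0 < W.a i c / W.a i (c + 1) := by positivity
    rw [Real.logb_mul (by positivity) (by positivity), Real.logb_mul (by positivity) (by positivity),
      Real.logb_mul (by positivity) (by positivity), Real.logb_pow, Real.logb_pow,
      ← Real.rpow_natCast, Real.logb_rpow (by norm_num) (by norm_num)] at h6
    push_cast at h6
    linarith
  have key : Real.logb 2 U.card ≤ 2 * Z.n i - 2 * max 0 (Real.logb 2 (W.a i c / W.a i (c + 1)) - (W.J i c : ℝ) / 2) +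
      (Real.logb 2 (8 * Z.C) - 2 * Real.logb 2 (W.ρ i)) := by
    have hpos : 0 ≤ Real.logb 2 (8 * Z.C) - 2 * Real.logb 2 (W.ρ i) := by
      have g1 : 0 ≤ Real.logb 2 (8 * Z.C) := Real.logb_nonneg (by norm_num) (by have := Z.C1; linarith)
      have g2 : Real.logb 2 (W.ρ i) ≤ 0 := Real.logb_nonpos (by norm_num) (W.ρpos i).le (W.ρ1 i)
      linarith
    rcases le_total 0 (Real.logb 2 (W.a i c / W.a i (c + 1)) - (W.J i c : ℝ) / 2) with h | h
    · rw [max_eq_right h]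
      linarith
    · rw [max_eq_left h]
      linarith
  nlinarith

/-- **kid** -/
theorem law_kid (W : VS Z) {c : ℕ} (hc : c < K) : Cnt W.sys (W.flg.Y (c + 1)) (W.flg.N c) (W.Jn c) := by
  classical
  intro ε hε
  filter_upwards [CS.le_lg (W.J_OL hc) (half_pos hε), CS.const_le (Z := Z) 1 (half_pos hε)] with i h1 h2 ω _
  have e : Z.lg (fun i => (W.J i c : ℝ)) = W.Jn c := rfl
  rw [e] at h1
  refine ⟨(W.V i).G c ((W.flg.N c i ω).sg (Z.n i)), ?_, fun ω' _ h => ?_⟩
  · have h3 := ((W.ok i).size c hc _ (nd_D (W.ok i) hc.le ω.2)).2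
    have h4 : (((W.V i).G c ((W.flg.N c i ω).sg (Z.n i))).card : ℝ) ≤ 2 ^ (W.J i c + 1) := by exact_mod_cast h3.le
    refine h4.trans ?_
    rw [← Real.rpow_natCast]
    refine Real.rpow_le_rpow_of_exponent_le (by norm_num) ?_
    have eL : ((W.sys.L i : ℕ) : ℝ) = Z.L i := rfl
    rw [eL]
    push_cast
    linarith
  · have h5 := nd_G (W.ok i) hc ω'.2
    rw [← h]
    exact h5

/-- **flag** -/
theorem law_flag (W : VS Z) (hX : Z.OL fun i => Real.logb 2 ((W.V i).X.card : ℝ)) :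
    Unf W.sys (Sys.pr W.flg.x (W.flg.Y K)) (Z.lg (fun i => Real.logb 2 ((W.V i).X.card : ℝ)) + ∑ c ∈ range K, W.Jn c) := by
  classical
  intro ε hε
  filter_upwards [CS.lg_le hX (half_pos hε), CS.lg_le W.sumJ_OL (half_pos hε)] with i h1 h2 ω
  rw [W.Jn_sum] at h2
  have hfl : (0 : ℝ) < (W.fl i).card := by exact_mod_cast (W.fl_ne i).card_pos
  have hXp : (0 : ℝ) < (W.V i).X.card := by exact_mod_cast (W.ne i).card_pos
  have eL : ((W.sys.L i : ℕ) : ℝ) = Z.L i := rfl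
  rw [eL]
  have h3 : (W.sys.P i).pr (Sys.pr W.flg.x (W.flg.Y K) i) (Sys.pr W.flg.x (W.flg.Y K) i ω) ≤ 1 / (W.fl i).card := by
    refine (le_of_eq (uL_pr (W.fl_ne i) (Sys.pr W.flg.x (W.flg.Y K) i) _)).trans ?_
    refine div_le_div_of_nonneg_right ?_ hfl.le
    refine le_trans (Nat.cast_le.2 (?_ : _ ≤ 1)) (by norm_num)
    · rw [Finset.card_le_one]
      intro f hf g hg
      rw [mem_filter] at hf hg
      have h4 : (W.flg.x i f, W.flg.Y K i f) = (W.flg.x i g, W.flg.Y K i g) := hf.2.trans hg.2.symm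
      have h5 : W.flg.x i f = W.flg.x i g := (Prod.ext_iff.1 h4).1
      have h6 : W.flg.Y K i f = W.flg.Y K i g := (Prod.ext_iff.1 h4).2
      have h7 : f.1.1 = g.1.1 := h5
      have h8 : f.1.2 = g.1.2 := by
        have q1 : W.flg.Y K i f = f.1.2 := by
          show (nd (Z.F i).s (Z.n i) K K f.1).τ = _
          rw [nd_τ (W.ok i) le_rfl f.2, Nat.sub_self, an_zero]
        have q2 : W.flg.Y K i g = g.1.2 := by
          show (nd (Z.F i).s (Z.n i) K K g.1).τ = _
          rw [nd_τ (W.ok i) le_rfl g.2, Nat.sub_self, an_zero]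
        rw [← q1, ← q2, h6]
      exact Subtype.ext (Prod.ext h7 h8)
  refine h3.trans ?_
  have c1 := (card_Fg (W.ok i) (i := K) le_rfl).1
  have c1' : ((W.V i).X.card : ℝ) * 2 ^ ((∑ c ∈ range K, W.J i c : ℕ) : ℝ) ≤ (W.fl i).card := by
    rw [Real.rpow_natCast]
    exact_mod_cast c1
  have l1 := Real.logb_le_logb_of_le (by norm_num : (1:ℝ) < 2) (by positivity) c1'
  rw [Real.logb_mul hXp.ne' (by positivity), Real.logb_rpow (by norm_num) (by norm_num)] at l1
  rw [← Real.logb_le_iff_le_rpow (by norm_num) (by positivity), Real.logb_div one_ne_zero hfl.ne', Real.logb_one]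
  nlinarith

end Vale.Agent.P122.H11
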